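import Vale.Agent.P078.Free.Near
import Vale.Agent.P078.Final.Iface
import Vale.Agent.P078.Orbit.Atoms

/-!
# Products of letters

A product of monomials and cell functions splits on finitely many atoms into monomials and letters.
Hence centred colours of this shape satisfy `ColourData`.
-/

namespace Vale.Agent.P078.General.Single

open scoped InnerProductSpace Topology ComplexOrder
open Filter Vale.Agent.P078.General.Orbit Vale.Agent.P078.General.Final

universe u

variable {H : Type u} [NormedAddCommGroup H] [InnerProductSpace ℂ H] [CompleteSpace H]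
variable {M A : VonNeumannAlgebra H} {φ : (H →L[ℂ] H) →ₗ[ℂ] ℂ}

section Mon

variable (hA : IsMasa M A)
include hA

theorem monP_memM {w : H →L[ℂ] H} (hw : MonP M A w) : w ∈ M := by
  obtain ⟨a, ha, v, hv, rfl⟩ := hw
  exact mul_mem (hA.le _ ha) hv.mem

theorem monP_pn {v : H →L[ℂ] H} (hv : IsPN M A v) : MonP M A v :=
  ⟨1, one_mem A, v, hv, (one_mul v).symm⟩

theorem monP_memA {a : H →L[ℂ] H} (ha : a ∈ A) : MonP M A a :=
  ⟨a, ha, 1, IsPN.one hA, (mul_one a).symm⟩

theorem monP_mul {v w : H →L[ℂ] H} (hv : MonP M A v) (hw : MonP M A w) : MonP M A (v * w) := by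
  obtain ⟨a, ha, v, hv, rfl⟩ := hv
  obtain ⟨b, hb, w, hw, rfl⟩ := hw
  refine ⟨a * (v * b * star v), mul_mem ha (hv.conj b hb), v * w, hv.mul hA hw, ?_⟩
  calc a * v * (b * w) = a * (v * b) * w := by simp only [mul_assoc]
    _ = a * (v * b * star v * v) * w := by rw [← hv.mul_A hA hb]
    _ = _ := by simp only [mul_assoc]

theorem monP_smul {w : H →L[ℂ] H} (c : ℂ) (hw : MonP M A w) : MonP M A (c • w) := by
  obtain ⟨a, ha, v, hv, rfl⟩ := hw
  exact ⟨c • a, smul_mem' A ha c, v, hv, (smul_mul_assoc c a v).symm⟩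

theorem monP_isSum {w : H →L[ℂ] H} (hw : MonP M A w) : IsSum M A w := by
  obtain ⟨a, ha, v, hv, rfl⟩ := hw
  exact IsSum.term ha hv

end Mon

/-- `prod_z S_z^* X_z S_z`. -/
noncomputable def dX : List (H →L[ℂ] H) → (ℕ → H →L[ℂ] H) → H →L[ℂ] H
  | [], _ => 1
  | S :: L, X => star S * X 0 * S * dX L fun z => X (z + 1)

/-- The gaps of a product as a word. -/
noncomputable def gaps : (H →L[ℂ] H) → List (H →L[ℂ] H) → (H →L[ℂ] H) → ℕ → H →L[ℂ] H
  | u, [], f, 0 => u * f
  | _, [], _, _ + 1 => 1
  | u, S :: _, _, 0 => u * star S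
  | _, S :: L, f, x + 1 => gaps S L f x

theorem pw_gaps : ∀ (L : List (H →L[ℂ] H)) (u f : H →L[ℂ] H) (X : ℕ → H →L[ℂ] H),
    pw L.length X (gaps u L f) = u * (dX L X * f)
  | [], u, f, X => by simp [pw, gaps, dX]
  | S :: L, u, f, X => by
    have h := pw_gaps L S f fun z => X (z + 1)
    simp only [List.length_cons, pw]
    rw [show (fun x => gaps u (S :: L) f (x + 1)) = gaps S L f from funext fun x => rfl, h]
    simp [gaps, dX, mul_assoc]

theorem gaps_mon (hA : IsMasa M A) : ∀ (L : List (H →L[ℂ] H)) (u f : H →L[ℂ] H),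
    (∀ S ∈ L, IsPN M A S) → MonP M A u → MonP M A f → ∀ x, MonP M A (gaps u L f x)
  | [], u, f, _, hu, hf, 0 => monP_mul hA hu hf
  | [], _, _, _, _, _, x + 1 => monP_memA hA (one_mem A)
  | S :: L, u, f, hL, hu, _, 0 => monP_mul hA hu (monP_pn hA (hL S (by simp)).star)
  | S :: L, u, f, hL, _, hf, x + 1 =>
    gaps_mon hA L S f (fun T hT => hL T (by simp [hT])) (monP_pn hA (hL S (by simp))) hf x

theorem dX_memA : ∀ {L : List (H →L[ℂ] H)} {X : ℕ → H →L[ℂ] H},
    (∀ S ∈ L, IsPN M A S) → (∀ z, X z ∈ A) → dX L X ∈ A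
  | [], _, _, _ => one_mem A
  | S :: L, X, hL, hX => mul_mem ((hL S (by simp)).conj' _ (hX 0))
      (dX_memA (fun T hT => hL T (by simp [hT])) fun z => hX (z + 1))

theorem dX_factor (hA : IsMasa M A) : ∀ (L : List (H →L[ℂ] H)) (X : ℕ → H →L[ℂ] H),
    (∀ S ∈ L, IsPN M A S) → (∀ z, X z ∈ A) → ∀ (y : ℕ) (hy : y < L.length),
      ∃ R ∈ A, dX L X = R * (star L[y] * X y * L[y])
  | S :: L, X, hL, hX, 0, _ =>
    ⟨dX L fun z => X (z + 1), dX_memA (fun T hT => hL T (by simp [hT])) fun z => hX (z + 1),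
      (hA.comm _ ((hL S (by simp)).conj' _ (hX 0)) _
        (dX_memA (fun T hT => hL T (by simp [hT])) fun z => hX (z + 1))).eq⟩
  | S :: L, X, hL, hX, y + 1, hy => by
    obtain ⟨R, hR, e⟩ := dX_factor hA L (fun z => X (z + 1)) (fun T hT => hL T (by simp [hT]))
      (fun z => hX (z + 1)) y (by simpa using hy)
    exact ⟨star S * X 0 * S * R, mul_mem ((hL S (by simp)).conj' _ (hX 0)) hR,
      by simp [dX, e, mul_assoc]⟩

theorem dX_factor_two (hA : IsMasa M A) : ∀ (L : List (H →L[ℂ] H)) (X : ℕ → H →L[ℂ] H),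
    (∀ S ∈ L, IsPN M A S) → (∀ z, X z ∈ A) → ∀ (x y : ℕ) (hx : x < L.length) (hy : y < L.length),
      x < y → ∃ R ∈ A, dX L X = R * (star L[x] * X x * L[x] * (star L[y] * X y * L[y]))
  | S :: L, X, hL, hX, 0, y + 1, _, hy, _ => by
    have hL' : ∀ T ∈ L, IsPN M A T := fun T hT => hL T (by simp [hT])
    obtain ⟨R, hR, e⟩ := dX_factor hA L (fun z => X (z + 1)) hL' (fun z => hX (z + 1)) y
      (by simpa using hy)
    refine ⟨R, hR, ?_⟩
    simp only [dX, e, List.getElem_cons_zero, List.getElem_cons_succ]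
    rw [← mul_assoc, (hA.comm _ ((hL S (by simp)).conj' _ (hX 0)) _ hR).eq, mul_assoc]
  | S :: L, X, hL, hX, x + 1, y + 1, hx, hy, hxy => by
    obtain ⟨R, hR, e⟩ := dX_factor_two hA L (fun z => X (z + 1)) (fun T hT => hL T (by simp [hT]))
      (fun z => hX (z + 1)) x y (by simpa using hx) (by simpa using hy) (by omega)
    exact ⟨star S * X 0 * S * R, mul_mem ((hL S (by simp)).conj' _ (hX 0)) hR,
      by simp [dX, e, mul_assoc]⟩

variable {β : Type} [Fintype β]

theorem cellOp_memA (Q : Part A (1 : H →L[ℂ] H)) (c : Fin Q.n → β) (g : β → ℝ) :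
    cellOp Q c g ∈ A :=
  sum_mem fun j _ => smul_mem' A (Q.isPart.mem j) _

theorem cellOp_mul (Q : Part A (1 : H →L[ℂ] H)) (c : Fin Q.n → β) (g h : β → ℝ) :
    cellOp Q c g * cellOp Q c h = cellOp Q c fun b => g b * h b := by
  unfold cellOp
  rw [Finset.sum_mul]
  refine Finset.sum_congr rfl fun j _ => ?_
  rw [Finset.mul_sum, Finset.sum_eq_single j (fun j' _ h' => by
    rw [smul_mul_smul_comm, Q.isPart.orth j j' h'.symm, smul_zero])
    (fun h' => absurd (Finset.mem_univ j) h'),
    smul_mul_smul_comm, (Q.isPart.proj j).isIdempotentElem.eq, Complex.ofReal_mul]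

theorem cellOp_add_const (Q : Part A (1 : H →L[ℂ] H)) (c : Fin Q.n → β) (g : β → ℝ) (s : ℝ) :
    cellOp Q c (fun b => g b + s) = cellOp Q c g + (s : ℂ) • 1 := by
  simp only [cellOp, Complex.ofReal_add, add_smul, Finset.sum_add_distrib]
  rw [← Finset.smul_sum, Q.isPart.sum_eq]

/-- `S^* cell(g) S`. -/
noncomputable def dfac (a : (H →L[ℂ] H) × (β → ℝ)) (Q : Part A (1 : H →L[ℂ] H))
    (c : Fin Q.n → β) : H →L[ℂ] H :=
  star a.1 * cellOp Q c a.2 * a.1

/-- A product of such factors. -/
noncomputable def dl : List ((H →L[ℂ] H) × (β → ℝ)) → SFam A β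
  | [], _, _ => 1
  | a :: L, Q, c => dfac a Q c * dl L Q c

omit [Fintype β] in
theorem dl_append : ∀ (L K : List ((H →L[ℂ] H) × (β → ℝ))) (Q : Part A (1 : H →L[ℂ] H))
    (c : Fin Q.n → β), dl (A := A) (L ++ K) Q c = dl L Q c * dl K Q c
  | [], K, Q, c => by simp [dl]
  | a :: L, K, Q, c => by simp [dl, dl_append L K Q c, mul_assoc]

theorem dfac_memA {a : (H →L[ℂ] H) × (β → ℝ)} (ha : IsPN M A a.1) (Q : Part A (1 : H →L[ℂ] H))
    (c : Fin Q.n → β) : dfac a Q c ∈ A :=
  ha.conj' _ (cellOp_memA Q c a.2)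

theorem dl_memA : ∀ {L : List ((H →L[ℂ] H) × (β → ℝ))}, (∀ a ∈ L, IsPN M A a.1) →
    ∀ (Q : Part A (1 : H →L[ℂ] H)) (c : Fin Q.n → β), dl L Q c ∈ A
  | [], _, _, _ => one_mem A
  | a :: L, hL, Q, c => mul_mem (dfac_memA (hL a (by simp)) Q c)
      (dl_memA (fun b hb => hL b (by simp [hb])) Q c)

theorem dl_eq_dX : ∀ (L : List ((H →L[ℂ] H) × (β → ℝ))) (Q : Part A (1 : H →L[ℂ] H))
    (c : Fin Q.n → β),
    dl L Q c = dX (L.map Prod.fst) fun z => cellOp Q c (L.getD z (1, 0)).2
  | [], Q, c => rfl
  | a :: L, Q, c => by simp [dl, dX, dfac, dl_eq_dX L Q c]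

/-- A finite sum of monomials plus a letter, eventually. -/
def Dec (M A : VonNeumannAlgebra H) (F : SFam A β) : Prop :=
  ∃ (s : H →L[ℂ] H) (L : SFam A β), IsSum M A s ∧ InLet A (MonP M A) L ∧
    ∀ᶠ Q in refF A, ∀ c, F Q c = s + L Q c

theorem inLet_zero (hA : IsMasa M A) :
    InLet A (MonP M A) (fun _ _ => (0 : H →L[ℂ] H) : SFam A β) := by
  refine InLet.word ⟨1, fun _ => 1, fun _ _ => 0, one_pos, fun _ => monP_memA hA (one_mem A),
    fun _ _ => by simp [av], fun x y h1 h2 => absurd h2 (by omega), fun Q c => ?_⟩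
  simp [pw, cells, cellOp]

theorem inLet_mon_mul (hA : IsMasa M A) {v : H →L[ℂ] H} (hv : MonP M A v) {L : SFam A β}
    (hL : InLet A (MonP M A) L) : InLet A (MonP M A) fun Q c => v * L Q c := by
  induction hL with
  | word h =>
    obtain ⟨k, n, g, hk, hn, hg, hc, e⟩ := h
    refine InLet.word ⟨k, fun x => if x = 0 then v * n x else n x, g, hk, fun x => ?_, hg,
      fun x y hxy hy => (hc x y hxy hy).mono fun Q hQ t ht => ?_, fun Q c => ?_⟩
    · dsimp only
      split_ifs
      exacts [monP_mul hA hv (hn x), hn x]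
    · rw [pw_mul_left, hQ t ht, mul_zero]
    · show v * _ = _
      rw [pw_mul_left, e]
  | add _ _ i1 i2 => simpa only [mul_add] using i1.add i2
  | smul s _ ih => simpa only [mul_smul_comm] using ih.smul s
  | congr _ he ih => exact ih.congr (he.mono fun Q h c => by (try dsimp only); rw [h c])

theorem dec_of_sum (hA : IsMasa M A) {s : H →L[ℂ] H} (hs : IsSum M A s) :
    Dec M A (fun _ _ => s : SFam A β) :=
  ⟨s, _, hs, inLet_zero hA, .of_forall fun Q c => by simp⟩

theorem dec_of_let {L : SFam A β} (hL : InLet A (MonP M A) L) : Dec M A L :=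
  ⟨0, L, IsSum.zero, hL, .of_forall fun Q c => by simp⟩

theorem dec_congr {F G : SFam A β} (h : Dec M A F) (he : ∀ᶠ Q in refF A, ∀ c, G Q c = F Q c) :
    Dec M A G := by
  obtain ⟨s, L, hs, hL, e⟩ := h
  exact ⟨s, L, hs, hL, (e.and he).mono fun Q hQ c => (hQ.2 c).trans (hQ.1 c)⟩

theorem dec_add {F G : SFam A β} (hF : Dec M A F) (hG : Dec M A G) :
    Dec M A fun Q c => F Q c + G Q c := by
  obtain ⟨s, L, hs, hL, e⟩ := hF
  obtain ⟨s', L', hs', hL', e'⟩ := hG
  exact ⟨s + s', _, hs.add hs', hL.add hL', (e.and e').mono fun Q hQ c => by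
    (try dsimp only); rw [hQ.1 c, hQ.2 c]; abel⟩

theorem dec_smul {F : SFam A β} (z : ℂ) (hF : Dec M A F) : Dec M A fun Q c => z • F Q c := by
  obtain ⟨s, L, hs, hL, e⟩ := hF
  exact ⟨z • s, _, hs.smul z, hL.smul z, e.mono fun Q hQ c => by (try dsimp only); rw [hQ c, smul_add]⟩

theorem dec_sum (hA : IsMasa M A) {ι : Type*} (S : Finset ι) {F : ι → SFam A β}
    (h : ∀ i ∈ S, Dec M A (F i)) : Dec M A fun Q c => ∑ i ∈ S, F i Q c := by
  classical
  induction S using Finset.induction_on with
  | empty => simpa using dec_of_sum (β := β) hA (IsSum.zero (M := M) (A := A))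
  | @insert i S hi ih =>
    simp only [Finset.sum_insert hi]
    exact dec_add (h i (by simp)) (ih fun j hj => h j (by simp [hj]))

theorem dec_mon_mul (hA : IsMasa M A) {v : H →L[ℂ] H} (hv : MonP M A v) {F : SFam A β}
    (hF : Dec M A F) : Dec M A fun Q c => v * F Q c := by
  obtain ⟨s, L, hs, hL, e⟩ := hF
  exact ⟨v * s, _, (monP_isSum hA hv).mul hA hs, inLet_mon_mul hA hv hL,
    e.mono fun Q hQ c => by (try dsimp only); rw [hQ c, mul_add]⟩

/-- A factor that vanishes on `f`. -/
theorem dfac_mul_eq_zero (hA : IsMasa M A) {a : (H →L[ℂ] H) × (β → ℝ)} (ha : IsPN M A a.1)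
    {f : H →L[ℂ] H} (hf : f ∈ A) (h : a.1 * f = 0) (Q : Part A (1 : H →L[ℂ] H))
    (c : Fin Q.n → β) : dfac a Q c * f = 0 := by
  rw [dfac, mul_assoc, h, mul_zero]

/-- Equal points have equal factors. -/
theorem dfac_eq_of_rel (hA : IsMasa M A) {S T f X a : H →L[ℂ] H} (hS : IsPN M A S)
    (hT : IsPN M A T) (hf : f ∈ A) (hfp : IsStarProjection f) (hX : X ∈ A) (ha : a ∈ A)
    (hsrc : star S * S * f = f) (h : S * f = T * a) :
    star S * X * S * f = star T * X * T * f := by
  have key : ∀ Y ∈ A, star S * Y * S * f = star T * Y * T * (star a * a) := fun Y hY => by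
    have e1 : star S * Y * S * f = f * (star S * Y * S) * f := by
      rw [(hA.comm f hf _ (hS.conj' Y hY)).eq, mul_assoc _ f f, hfp.isIdempotentElem.eq]
    have e2 : f * star S = star a * star T := by
      have := congrArg star h
      rwa [star_mul, star_mul, hfp.isSelfAdjoint.star_eq] at this
    rw [e1, show f * (star S * Y * S) * f = f * star S * Y * (S * f) by simp only [mul_assoc], e2, h,
      show star a * star T * Y * (T * a) = star a * (star T * Y * T) * a by simp only [mul_assoc],
      (hA.comm _ (star_mem ha) _ (hT.conj' Y hY)).eq, mul_assoc]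
  have k1 := key 1 (one_mem A)
  simp only [mul_one, hsrc] at k1
  rw [key X hX, k1, show star T * X * T * (star T * T * (star a * a)) =
    star T * X * (T * (star T * T)) * (star a * a) by simp only [mul_assoc], hT.pi]

variable [Nonempty β]

/-- Products of factors on an atom. -/
theorem dec_dl_atom (hA : IsMasa M A) {n : ℕ}
    (ih : ∀ L : List ((H →L[ℂ] H) × (β → ℝ)), L.length < n → (∀ a ∈ L, IsPN M A a.1) →
      ∀ u f : H →L[ℂ] H, MonP M A u → f ∈ A → IsStarProjection f →
        Dec M A fun Q c => u * (dl L Q c * f))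
    {L : List ((H →L[ℂ] H) × (β → ℝ))} (hn : L.length = n) (hn0 : 0 < n)
    (hL : ∀ a ∈ L, IsPN M A a.1) (hg : ∀ a ∈ L, av a.2 = 0) {u f e : H →L[ℂ] H}
    (hu : MonP M A u) (hf : f ∈ A) (hfp : IsStarProjection f) (he : e ∈ A) (hfe : f * e = f)
    (hsrc : ∀ a ∈ L, star a.1 * a.1 * e = e ∨ a.1 * e = 0)
    (hrel : ∀ a ∈ L, ∀ b ∈ L, (∃ x ∈ A, a.1 * e = b.1 * x) ∨
      a.1 * e * star a.1 * (b.1 * e * star b.1) = 0) :
    Dec M A fun Q c => u * (dl L Q c * f) := by
  classical
  have hef : e * f = f := by rw [(hA.comm e he f hf).eq, hfe]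
  by_cases h0 : ∃ a ∈ L, a.1 * e = 0
  · obtain ⟨a, haL, ha⟩ := h0
    obtain ⟨L1, L2, rfl⟩ := List.append_of_mem haL
    refine dec_congr (dec_of_sum hA IsSum.zero) (.of_forall fun Q c => ?_)
    have h1 : dfac a Q c * f = 0 := dfac_mul_eq_zero hA (hL a (by simp)) hf
      (by rw [← hef, ← mul_assoc, ha, zero_mul]) Q c
    have h2 : dl L2 Q c * f = f * dl L2 Q c :=
      (hA.comm _ (dl_memA (fun b hb => hL b (by simp [hb])) Q c) f hf).eq
    rw [dl_append, dl, mul_assoc, mul_assoc, h2, ← mul_assoc (dfac a Q c), h1]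
    simp
  push Not at h0
  have hsrc' : ∀ a ∈ L, star a.1 * a.1 * f = f := fun a ha => by
    rcases hsrc a ha with h | h
    · rw [← hef, ← mul_assoc, h]
    · exact absurd h (h0 a ha)
  by_cases hp : L.Pairwise fun a b => a.1 * e * star a.1 * (b.1 * e * star b.1) = 0
  · refine dec_of_let (InLet.word ⟨(L.map Prod.fst).length, gaps u (L.map Prod.fst) f,
      fun z => (L.getD z (1, 0)).2, by simpa [hn] using hn0, ?_, fun x hx => ?_, ?_, fun Q c => ?_⟩)
    · exact gaps_mon hA _ _ _ (fun S hS => by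
        obtain ⟨a, ha, rfl⟩ := List.mem_map.1 hS
        exact hL a ha) hu (monP_memA hA hf)
    · have hx' : x < L.length := by simpa using hx
      dsimp only
      rw [List.getD_eq_getElem L _ hx']
      exact hg _ (List.getElem_mem hx')
    · intro x y hxy hy
      have hy' : y < L.length := by simpa using hy
      have hx' : x < L.length := hxy.trans hy'
      set Sx := (L[x]'hx').1 with hSx
      set Sy := (L[y]'hy').1 with hSy
      have hPx : IsPN M A Sx := hL _ (List.getElem_mem hx')
      have hPy : IsPN M A Sy := hL _ (List.getElem_mem hy')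
      have hef' : e * f * e = f := by rw [hef, hfe]
      have horth : Sx * f * star Sx * (Sy * f * star Sy) = 0 := by
        have h := List.pairwise_iff_getElem.1 hp x y hx' hy' hxy
        rw [← hSx, ← hSy] at h
        have e1 : Sx * f * star Sx = Sx * f * star Sx * (Sx * e * star Sx) := by
          rw [hPx.conj_mul hA hf, hfe]
        have e2 : Sy * f * star Sy = Sy * e * star Sy * (Sy * f * star Sy) := by
          rw [hPy.conj_mul hA he, hef]
        rw [e1, e2, mul_assoc, ← mul_assoc (Sx * e * star Sx), h, zero_mul, mul_zero]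
      filter_upwards [eventually_refines (twoPart (hPx.conj f hf) (hPx.conj_proj hA hf hfp)),
        eventually_refines (twoPart (hPy.conj f hf) (hPy.conj_proj hA hf hfp))] with Q h1 h2
      intro t ht
      rw [pw_gaps]
      obtain ⟨R, hR, eR⟩ := dX_factor_two hA (L.map Prod.fst) (fun z => Q.p (t z))
        (fun S hS => by
          obtain ⟨a, ha, rfl⟩ := List.mem_map.1 hS
          exact hL a ha) (fun z => Q.isPart.mem _) x y (by simpa using hx') (by simpa using hy') hxy
      simp only [List.getElem_map, ← hSx, ← hSy, ← ht] at eR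
      rw [eR]
      set q := Q.p (t x)
      have hq : q ∈ A := Q.isPart.mem _
      have hz : ∀ S : H →L[ℂ] H, IsPN M A S → q * (S * f * star S) = 0 →
          star S * q * S * f = 0 := fun S hS hq0 => by
        rw [mul_assoc _ S f, hS.mul_A hA hf,
          show star S * q * (S * f * star S * S) = star S * (q * (S * f * star S)) * S by
            simp only [mul_assoc], hq0]
        simp
      have hzero : star Sx * q * Sx * (star Sy * q * Sy) * f = 0 := by
        have k1 : q * (Sx * f * star Sx) = q ∨ q * (Sx * f * star Sx) = 0 := h1 (t x) (0 : Fin 2)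
        have k2 : q * (Sy * f * star Sy) = q ∨ q * (Sy * f * star Sy) = 0 := h2 (t x) (0 : Fin 2)
        rcases k2 with k2 | k2
        · rcases k1 with k1 | k1
          · have : q = 0 := by
              rw [← k2, ← k1, mul_assoc, horth, mul_zero]
            simp [this]
          · rw [(hA.comm _ (hPx.conj' q hq) _ (hPy.conj' q hq)).eq, mul_assoc,
              hz Sx hPx k1, mul_zero]
        · rw [mul_assoc, hz Sy hPy k2, mul_zero]
      rw [mul_assoc R, hzero, mul_zero, mul_zero]
    · show u * (dl L Q c * f) = pw _ (cells Q c _) _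
      rw [pw_gaps, dl_eq_dX]
      rfl
  · obtain ⟨L1, a, L2, b, L3, hLe, hab⟩ :
        ∃ L1 a L2 b L3, L = L1 ++ a :: (L2 ++ b :: L3) ∧
          ¬ a.1 * e * star a.1 * (b.1 * e * star b.1) = 0 := by
      clear ih hn hL hg hsrc hrel h0 hsrc'
      induction L with
      | nil => exact absurd List.Pairwise.nil hp
      | cons a L ihL =>
        rw [List.pairwise_cons, not_and_or] at hp
        rcases hp with hp | hp
        · push Not at hp
          obtain ⟨b, hb, hab⟩ := hp
          obtain ⟨L2, L3, rfl⟩ := List.append_of_mem hb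
          exact ⟨[], a, L2, b, L3, rfl, hab⟩
        · obtain ⟨L1, a', L2, b, L3, rfl, hab⟩ := ihL hp
          exact ⟨a :: L1, a', L2, b, L3, rfl, hab⟩
    subst hLe
    have ha : IsPN M A a.1 := hL a (by simp)
    have hb : IsPN M A b.1 := hL b (by simp)
    obtain ⟨x, hx, hax⟩ := (hrel a (by simp) b (by simp)).resolve_right hab
    have hrel' : a.1 * f = b.1 * (x * f) := by
      rw [← hef, ← mul_assoc, hax, hef, mul_assoc]
    refine dec_congr (ih (L1 ++ (L2 ++ (b.1, fun v => a.2 v * b.2 v) :: L3))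
      (by simp only [List.length_append, List.length_cons] at hn ⊢; omega) ?_ u f hu hf hfp)
      (.of_forall fun Q c => ?_)
    · intro z hz
      simp only [List.mem_append, List.mem_cons] at hz
      rcases hz with h | h | rfl | h
      exacts [hL z (by simp [h]), hL z (by simp [h]), hb, hL z (by simp [h])]
    · have hL1 := dl_memA (fun z hz => hL z (by simp [hz]) : ∀ z ∈ L1, IsPN M A z.1) Q c
      have hL2 := dl_memA (fun z hz => hL z (by simp [hz]) : ∀ z ∈ L2, IsPN M A z.1) Q c
      have hL3 := dl_memA (fun z hz => hL z (by simp [hz]) : ∀ z ∈ L3, IsPN M A z.1) Q c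
      have hda := dfac_memA ha Q c
      have hdb := dfac_memA hb Q c
      have e1 : dfac a Q c * f = dfac (b.1, a.2) Q c * f :=
        dfac_eq_of_rel hA ha hb hf hfp (cellOp_memA Q c a.2) (mul_mem hx hf)
          (hsrc' a (by simp)) hrel'
      have e2 : dfac (b.1, a.2) Q c * dfac b Q c = dfac (b.1, fun v => a.2 v * b.2 v) Q c := by
        simp only [dfac]
        rw [← cellOp_mul, show star b.1 * cellOp Q c a.2 * b.1 * (star b.1 * cellOp Q c b.2 * b.1) =
          star b.1 * cellOp Q c a.2 * (b.1 * star b.1 * cellOp Q c b.2) * b.1 by simp only [mul_assoc],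
          (hA.comm _ hb.tgt_memA _ (cellOp_memA Q c b.2)).eq,
          show star b.1 * cellOp Q c a.2 * (cellOp Q c b.2 * (b.1 * star b.1)) * b.1 =
            star b.1 * (cellOp Q c a.2 * cellOp Q c b.2) * (b.1 * star b.1 * b.1) by
            simp only [mul_assoc], hb.tgt_mul]
      simp only [dl_append, dl]
      rw [← e2]
      have hrest : dl L2 Q c * (dfac b Q c * dl L3 Q c) ∈ A := mul_mem hL2 (mul_mem hdb hL3)
      calc u * (dl L1 Q c * (dfac a Q c * (dl L2 Q c * (dfac b Q c * dl L3 Q c))) * f)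
          = u * (dl L1 Q c * ((dl L2 Q c * (dfac b Q c * dl L3 Q c)) * (dfac a Q c * f))) := by
            rw [mul_assoc (dl L1 Q c), ← mul_assoc _ (dfac a Q c) f, (hA.comm _ hda _ hrest).eq]
        _ = u * (dl L1 Q c * ((dl L2 Q c * (dfac b Q c * dl L3 Q c)) *
              (dfac (b.1, a.2) Q c * f))) := by rw [e1]
        _ = _ := by
          have hd' : dfac (b.1, a.2) Q c ∈ A := dfac_memA (a := (b.1, a.2)) hb Q c
          rw [← mul_assoc _ (dfac (b.1, a.2) Q c) f, mul_assoc (dl L2 Q c) _ (dfac (b.1, a.2) Q c),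
            (hA.comm _ (mul_mem hdb hL3) _ hd').eq]
          simp only [mul_assoc]

theorem dec_dl (hφ : IsCState M A φ) : ∀ (L : List ((H →L[ℂ] H) × (β → ℝ))),
    (∀ a ∈ L, IsPN M A a.1) → ∀ u f : H →L[ℂ] H, MonP M A u → f ∈ A → IsStarProjection f →
      Dec M A fun Q c => u * (dl L Q c * f) := by
  have hA := hφ.masa
  intro L
  induction hn : L.length using Nat.strong_induction_on generalizing L with
  | _ n ih =>
    have ih' : ∀ K : List ((H →L[ℂ] H) × (β → ℝ)), K.length < n → (∀ a ∈ K, IsPN M A a.1) →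
        ∀ u f : H →L[ℂ] H, MonP M A u → f ∈ A → IsStarProjection f →
          Dec M A fun Q c => u * (dl K Q c * f) := fun K hK => ih K.length hK K rfl
    rcases Nat.eq_zero_or_pos n with rfl | hn0
    · intro _ u f hu hf _
      obtain rfl := List.eq_nil_of_length_eq_zero hn
      simpa [dl] using dec_of_sum (β := β) hA (monP_isSum hA (monP_mul hA hu (monP_memA hA hf)))
    suffices ∀ (K C : List ((H →L[ℂ] H) × (β → ℝ))), C.length + K.length = n →
        (∀ a ∈ C, av a.2 = 0) → (∀ a ∈ C ++ K, IsPN M A a.1) → ∀ u f : H →L[ℂ] H, MonP M A u →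
          f ∈ A → IsStarProjection f → Dec M A fun Q c => u * (dl (C ++ K) Q c * f) from
      fun hL => this L [] (by simpa using hn) (by simp) hL
    intro K
    induction K with
    | nil =>
      intro C hC hg hL u f hu hf hfp
      simp only [List.append_nil] at hL ⊢
      obtain ⟨P, hP⟩ := exists_atoms hφ (fun i : Fin C.length => (C.get i).1)
        fun i => hL _ (C.get_mem i)
      refine dec_congr (dec_sum hA Finset.univ fun k _ =>
        dec_dl_atom hA ih' (by simpa using hC) hn0 hL hg hu (mul_mem hf (P.isPart.mem k))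
          (hfp.mul (P.isPart.proj k) (hA.comm _ hf _ (P.isPart.mem k))) (P.isPart.mem k)
          (by rw [mul_assoc, (P.isPart.proj k).isIdempotentElem.eq]) (fun a ha => ?_)
          fun a ha b hb => ?_) (.of_forall fun Q c => ?_)
      · obtain ⟨i, rfl⟩ := List.mem_iff_get.1 ha
        exact (hP P (Part.refines_refl P) k).1 i
      · obtain ⟨i, rfl⟩ := List.mem_iff_get.1 ha
        obtain ⟨j, rfl⟩ := List.mem_iff_get.1 hb
        exact (hP P (Part.refines_refl P) k).2 i j
      · simp only [← mul_assoc, ← Finset.mul_sum, P.isPart.sum_eq, mul_one]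
    | cons a K ihK =>
      intro C hC hg hL u f hu hf hfp
      have ha : IsPN M A a.1 := hL a (by simp)
      set m := av a.2
      set g0 : β → ℝ := fun v => a.2 v + -m
      have hg0 : av g0 = 0 := by
        show av (fun v => a.2 v + -m) = 0
        rw [av_add, av_const]; ring
      have h1 := ihK (C ++ [(a.1, g0)])
        (by simp only [List.length_append, List.length_cons, List.length_nil] at hC ⊢; omega)
        (fun b hb => by
          simp only [List.mem_append, List.mem_singleton] at hb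
          rcases hb with h | rfl
          exacts [hg b h, hg0])
        (fun b hb => by
          simp only [List.mem_append, List.mem_singleton] at hb
          rcases hb with (h | rfl) | h
          exacts [hL b (by simp [h]), ha, hL b (by simp [h])]) u f hu hf hfp
      have h2 := ih' (C ++ K)
        (by simp only [List.length_append, List.length_cons] at hC ⊢; omega)
        (fun b hb => hL b (by simp only [List.mem_append, List.mem_cons] at hb ⊢; tauto)) u
        (star a.1 * a.1 * f) hu (mul_mem ha.src_memA hf)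
        (ha.isStarProjection_src.mul hfp (hA.comm _ ha.src_memA _ hf))
      refine dec_congr (dec_add h1 (dec_smul (m : ℂ) h2)) (.of_forall fun Q c => ?_)
      have hK : dl K Q c ∈ A := dl_memA (fun b hb => hL b (by simp [hb])) Q c
      have e : dfac a Q c = dfac (a.1, g0) Q c + (m : ℂ) • (star a.1 * a.1) := by
        simp only [dfac, g0, cellOp_add_const, mul_add, add_mul, mul_smul_comm, smul_mul_assoc,
          mul_one, Complex.ofReal_neg, neg_smul, mul_neg, neg_mul, neg_add_cancel_right]
      have hc : star a.1 * a.1 * dl K Q c = dl K Q c * (star a.1 * a.1) :=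
        (hA.comm _ ha.src_memA _ hK).eq
      simp only [dl_append, dl, e, mul_one, add_mul, mul_add, smul_mul_assoc, mul_smul_comm,
        mul_assoc]
      congr 3
      simp only [← mul_assoc]
      rw [mul_assoc (dl C Q c) (star a.1) a.1, mul_assoc (dl C Q c) (star a.1 * a.1), hc]
      simp only [mul_assoc]

theorem dec_pw (hφ : IsCState M A φ) : ∀ (k : ℕ) (n : ℕ → H →L[ℂ] H) (g : ℕ → β → ℝ),
    (∀ x, MonP M A (n x)) → Dec M A (fun Q c => pw k (cells Q c g) n : SFam A β) := by
  have hA := hφ.masa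
  have key : ∀ (k : ℕ) (n : ℕ → H →L[ℂ] H) (g : ℕ → β → ℝ), (∀ x, MonP M A (n x)) →
      ∃ (u : H →L[ℂ] H) (L : List ((H →L[ℂ] H) × (β → ℝ))), MonP M A u ∧
        (∀ a ∈ L, IsPN M A a.1) ∧ ∀ (Q : Part A (1 : H →L[ℂ] H)) c, pw k (cells Q c g) n = u * dl L Q c := by
    intro k
    induction k with
    | zero => exact fun n g hn => ⟨n 0, [], hn 0, by simp, fun Q c => by simp [pw, dl]⟩
    | succ k ih =>
      intro n g hn
      obtain ⟨u', L, ⟨a, ha, v, hv, rfl⟩, hL, e⟩ :=
        ih (fun x => n (x + 1)) (fun x => g (x + 1)) fun x => hn (x + 1)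
      refine ⟨n 0 * (a * v), (v, g 0) :: L, monP_mul hA (hn 0) ⟨a, ha, v, hv, rfl⟩, ?_, fun Q c => ?_⟩
      · intro b hb
        rcases List.mem_cons.1 hb with rfl | hb
        exacts [hv, hL b hb]
      · rw [pw, show (fun x => cells Q c g (x + 1)) = cells Q c fun x => g (x + 1) from rfl, e Q c]
        have hC := cellOp_memA Q c (g 0)
        show n 0 * cellOp Q c (g 0) * (a * v * dl L Q c) =
          n 0 * (a * v) * (star v * cellOp Q c (g 0) * v * dl L Q c)
        rw [show n 0 * cellOp Q c (g 0) * (a * v * dl L Q c) =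
          n 0 * (cellOp Q c (g 0) * a) * v * dl L Q c by simp only [mul_assoc],
          (hA.comm _ hC a ha).eq, show n 0 * (a * cellOp Q c (g 0)) * v * dl L Q c =
            n 0 * a * (cellOp Q c (g 0) * v) * dl L Q c by simp only [mul_assoc], hv.A_mul hA hC]
        simp only [mul_assoc]
  intro k n g hn
  obtain ⟨u, L, hu, hL, e⟩ := key k n g hn
  exact dec_congr (dec_dl hφ L hL u 1 hu (one_mem A) (IsStarProjection.one _))
    (.of_forall fun Q c => by (try dsimp only); rw [e Q c, mul_one])

theorem dec_cell_mul (hφ : IsCState M A φ) (g : β → ℝ) {F : SFam A β} (hF : Dec M A F) :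
    Dec M A fun Q c => cellOp Q c g * F Q c := by
  have hA := hφ.masa
  obtain ⟨s, L, hs, hL, e⟩ := hF
  have h1 : Dec M A (fun Q c => cellOp Q c g * s : SFam A β) := by
    clear e
    induction hs with
    | zero => simpa using dec_of_sum (β := β) hA (IsSum.zero (M := M) (A := A))
    | @term a v ha hv =>
      refine dec_congr (dec_pw hφ 1 (fun x => if x = 0 then 1 else a * v) (fun _ => g) fun x => ?_)
        (.of_forall fun Q c => by simp [pw, cells])
      (try dsimp only)
      split_ifs
      exacts [monP_memA hA (one_mem A), ⟨a, ha, v, hv, rfl⟩]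
    | add _ _ i1 i2 => simpa only [mul_add] using dec_add i1 i2
  have h2 : Dec M A (fun Q c => cellOp Q c g * L Q c : SFam A β) := by
    clear e
    induction hL with
    | word h =>
      obtain ⟨k, n, g', -, hn, -, -, e'⟩ := h
      refine dec_congr (dec_pw hφ (k + 1) (fun x => if x = 0 then 1 else n (x - 1))
        (fun x => if x = 0 then g else g' (x - 1)) fun x => ?_) (.of_forall fun Q c => ?_)
      · (try dsimp only)
        split_ifs
        exacts [monP_memA hA (one_mem A), hn _]
      · simp only [e', pw, cells, if_pos, one_mul, Nat.succ_ne_zero, if_false, Nat.add_sub_cancel]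
        rfl
    | add _ _ i1 i2 => simpa only [mul_add] using dec_add i1 i2
    | smul z _ ih => simpa only [mul_smul_comm] using dec_smul z ih
    | congr _ he ih => exact dec_congr ih (he.mono fun Q h c => by (try dsimp only); rw [h c])
  exact dec_congr (dec_add h1 h2) (e.mono fun Q h c => by (try dsimp only); rw [h c, mul_add])

theorem dec_let_mul (hφ : IsCState M A φ) {K : SFam A β} (hK : InLet A (MonP M A) K) {F : SFam A β}
    (hF : Dec M A F) : Dec M A fun Q c => K Q c * F Q c := by
  have hA := hφ.masa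
  induction hK with
  | word h =>
    obtain ⟨k, n, g, -, hn, -, -, e⟩ := h
    have key : ∀ (k : ℕ) (n : ℕ → H →L[ℂ] H) (g : ℕ → β → ℝ), (∀ x, MonP M A (n x)) →
        Dec M A fun Q c => pw k (cells Q c g) n * F Q c := by
      intro k
      induction k with
      | zero => exact fun n g hn => dec_mon_mul hA (hn 0) hF
      | succ k ih =>
        intro n g hn
        refine dec_congr (dec_mon_mul hA (hn 0) (dec_cell_mul hφ (g 0)
          (ih (fun x => n (x + 1)) (fun x => g (x + 1)) fun x => hn (x + 1))))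
          (.of_forall fun Q c => ?_)
        simp only [pw, mul_assoc]
        rfl
    exact dec_congr (key k n g hn) (.of_forall fun Q c => by (try dsimp only); rw [e Q c])
  | add _ _ i1 i2 => simpa only [add_mul] using dec_add i1 i2
  | smul z _ ih => simpa only [smul_mul_assoc] using dec_smul z ih
  | congr _ he ih => exact dec_congr ih (he.mono fun Q h c => by (try dsimp only); rw [h c])

/-- A colour whose centred part is a letter gives colour data. -/
theorem colourData_of (hφ : IsCState M A φ) {t : ℝ} {p : SFam A β}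
    (proj : ∀ Q c, IsStarProjection (p Q c)) (memA : ∀ Q c, p Q c ∈ A) (ht : 0 < t) (ht1 : t ≤ 1)
    (hq : InLet A (MonP M A) fun Q c => p Q c - (t : ℂ) • 1) :
    ColourData M A (MonP M A) (InLet A (MonP M A)) t p := by
  refine ⟨proj, memA, ht, ht1, hq, fun _ h => h, fun v L hv hL => inLet_mon_mul hφ.masa hv hL,
    fun L hL => ?_⟩
  obtain ⟨s, L', hs, hL', e⟩ := dec_let_mul hφ hq (dec_of_let hL)
  obtain ⟨k, a, v, ha, hv, rfl⟩ := hs.exists_fin
  exact ⟨k, fun _ => 1, fun i => a i * v i, L', fun i => ⟨a i, ha i, v i, hv i, rfl⟩, hL',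
    e.mono fun Q h c => (h c).trans (by simp)⟩

end Vale.Agent.P078.General.Single
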