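import Vale.Agent.P078.Free.Span

/-!
# Left multiplication keeps vectors near `InV0 + InV1`
-/

namespace Vale.Agent.P078.General.Single

open scoped InnerProductSpace Topology ComplexOrder
open Filter

universe u

variable {H : Type u} [NormedAddCommGroup H] [InnerProductSpace ℂ H] [CompleteSpace H]
variable {M A : VonNeumannAlgebra H} {φ : (H →L[ℂ] H) →ₗ[ℂ] ℂ}
variable {Mon Gap : (H →L[ℂ] H) → Prop} {β : Type} [Fintype β]

theorem tame_mul {F G : SFam A β} (hF : Tame M A φ F) (hG : Tame M A φ G) :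
    Tame M A φ fun Q c => F Q c * G Q c := by
  obtain ⟨⟨K, hK0, hK⟩, sF⟩ := hF
  obtain ⟨⟨L, hL0, hL⟩, sG⟩ := hG
  refine ⟨⟨K * L, by positivity, ?_⟩, fun C η hη => ?_⟩
  · filter_upwards [hK, hL] with Q h1 h2 c
    exact ⟨mul_mem (h1 c).1 (h2 c).1,
      (norm_mul_le _ _).trans (mul_le_mul (h1 c).2 (h2 c).2 (norm_nonneg _) hK0)⟩
  · obtain ⟨δ1, hδ1, h1⟩ := sG (max C 0 * K) η hη
    obtain ⟨δ2, hδ2, h2⟩ := sF C δ1 hδ1
    refine ⟨δ2, hδ2, ?_⟩
    filter_upwards [h1, h2, hK] with Q g1 g2 g3 c z hz hzC hzs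
    rw [← mul_assoc]
    exact g1 c _ (mul_mem hz (g3 c).1) ((norm_mul_le _ _).trans (mul_le_mul
      (hzC.trans (le_max_left _ _)) (g3 c).2 (norm_nonneg _) (le_max_right _ _)))
      (g2 c z hz hzC hzs)

theorem tame_add (hφ : IsCState M A φ) {F G : SFam A β} (hF : Tame M A φ F) (hG : Tame M A φ G) :
    Tame M A φ fun Q c => F Q c + G Q c := by
  obtain ⟨⟨K, hK0, hK⟩, sF⟩ := hF
  obtain ⟨⟨L, hL0, hL⟩, sG⟩ := hG
  refine ⟨⟨K + L, by positivity, ?_⟩, fun C η hη => ?_⟩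
  · filter_upwards [hK, hL] with Q h1 h2 c
    exact ⟨add_mem (h1 c).1 (h2 c).1, (norm_add_le _ _).trans (add_le_add (h1 c).2 (h2 c).2)⟩
  · obtain ⟨δ1, hδ1, h1⟩ := sF C (η / 4) (by positivity)
    obtain ⟨δ2, hδ2, h2⟩ := sG C (η / 4) (by positivity)
    refine ⟨min δ1 δ2, lt_min hδ1 hδ2, ?_⟩
    filter_upwards [h1, h2, hK, hL] with Q g1 g2 g3 g4 c z hz hzC hzs
    rw [mul_add]
    refine (hφ.sq_add_le (mul_mem hz (g3 c).1) (mul_mem hz (g4 c).1)).trans ?_
    linarith [g1 c z hz hzC (hzs.trans (min_le_left _ _)),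
      g2 c z hz hzC (hzs.trans (min_le_right _ _))]

theorem tame_smul (hφ : IsCState M A φ) {F : SFam A β} (s : ℂ) (hF : Tame M A φ F) :
    Tame M A φ fun Q c => s • F Q c := by
  have e : (fun Q c => s • F Q c : SFam A β) = fun Q c => (s • (1 : H →L[ℂ] H)) * F Q c := by
    funext Q c; rw [smul_mul_assoc, one_mul]
  rw [e]
  exact tame_mul (tame_const hφ (smul_mem' M (one_mem M) s)) hF

theorem tame_congr {F G : SFam A β} (hF : Tame M A φ F)
    (he : ∀ᶠ Q in refF A, ∀ c, G Q c = F Q c) : Tame M A φ G := by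
  obtain ⟨⟨K, hK0, hK⟩, sF⟩ := hF
  refine ⟨⟨K, hK0, ?_⟩, fun C η hη => ?_⟩
  · filter_upwards [hK, he] with Q h1 h2 c
    rw [h2 c]; exact h1 c
  · obtain ⟨δ, hδ, h⟩ := sF C η hη
    refine ⟨δ, hδ, ?_⟩
    filter_upwards [h, he] with Q h1 h2 c z hz hC hs
    rw [h2 c]; exact h1 c z hz hC hs

theorem tame_pw (hφ : IsCState M A φ) : ∀ (k : ℕ) (n : ℕ → H →L[ℂ] H) (g : ℕ → β → ℝ),
    (∀ x, n x ∈ M) → Tame M A φ (fun Q c => pw k (cells Q c g) n : SFam A β)
  | 0, n, g, hn => tame_const hφ (hn 0)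
  | k + 1, n, g, hn => tame_mul (tame_mul (tame_const hφ (hn 0)) (tame_cell hφ (g 0)))
      (tame_pw hφ k (fun x => n (x + 1)) (fun x => g (x + 1)) fun x => hn (x + 1))

theorem tame_inLet (hφ : IsCState M A φ) (hD : FreeData M A φ Mon Gap) {L : SFam A β}
    (h : InLet A Mon L) : Tame M A φ L := by
  induction h with
  | word h =>
    obtain ⟨k, n, g, -, hn, -, -, e⟩ := h
    exact tame_congr (tame_pw hφ k n g fun x => hD.mon_mem _ (hn x))
      (.of_forall fun Q c => e Q c)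
  | add _ _ i1 i2 => exact tame_add hφ i1 i2
  | smul s _ ih => exact tame_smul hφ s ih
  | congr _ he ih => exact tame_congr ih he

theorem tame_inV0 (hφ : IsCState M A φ) (hD : FreeData M A φ Mon Gap) {f : SFam A β}
    (h : InV0 M A Gap (InLet A Mon) f) : Tame M A φ f := by
  induction h with
  | base hb => exact tame_const hφ hb
  | step hd hL _ ih =>
    exact tame_mul (tame_const hφ (hD.gap_mem _ hd)) (tame_mul (tame_inLet hφ hD hL) ih)
  | add _ _ i1 i2 => exact tame_add hφ i1 i2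
  | smul s _ ih => exact tame_smul hφ s ih

/-- A random colour for the letter class `Let`. -/
structure ColourData (M A : VonNeumannAlgebra H) (Mon : (H →L[ℂ] H) → Prop)
    (Let : SFam A β → Prop) (t : ℝ) (p : SFam A β) : Prop where
  proj : ∀ Q c, IsStarProjection (p Q c)
  memA : ∀ Q c, p Q c ∈ A
  t_pos : 0 < t
  t_le : t ≤ 1
  let_q : Let fun Q c => p Q c - (t : ℂ) • 1
  let_in : ∀ L, Let L → InLet A Mon L
  let_left : ∀ v L, Mon v → Let L → Let fun Q c => v * L Q c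
  let_q_mul : ∀ L, Let L → ∃ (k : ℕ) (s : Fin k → ℂ) (v : Fin k → H →L[ℂ] H) (L' : SFam A β),
    (∀ i, Mon (v i)) ∧ Let L' ∧
      ∀ᶠ Q in refF A, ∀ c, (p Q c - (t : ℂ) • 1) * L Q c = (∑ i, s i • v i) + L' Q c

variable {Let : SFam A β → Prop} {t : ℝ} {p : SFam A β}

theorem tame_inV1 (hφ : IsCState M A φ) (hD : FreeData M A φ Mon Gap)
    (hC : ColourData M A Mon Let t p) {f : SFam A β} (h : InV1 M A Gap Let f) :
    Tame M A φ f := by
  induction h with
  | mk hL hf =>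
    exact tame_mul (tame_inLet hφ hD (hC.let_in _ hL)) (tame_inV0 hφ hD (inV0_mono hC.let_in hf))
  | add _ _ i1 i2 => exact tame_add hφ i1 i2
  | smul s _ ih => exact tame_smul hφ s ih

/-- Mean square. -/
noncomputable def msqF (φ : (H →L[ℂ] H) →ₗ[ℂ] ℂ) (f : SFam A β) (Q : Part A (1 : H →L[ℂ] H)) : ℝ :=
  av fun c => sq φ (f Q c)

/-- Eventually in `M`. -/
def EMem (M A : VonNeumannAlgebra H) (w : SFam A β) : Prop :=
  ∀ᶠ Q in refF A, ∀ c, w Q c ∈ M

theorem Tame.emem {F : SFam A β} (h : Tame M A φ F) : EMem M A F := by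
  obtain ⟨⟨K, -, hK⟩, -⟩ := h
  exact hK.mono fun Q h c => (h c).1

/-- Close to `InV0 + InV1`. -/
def Near (M A : VonNeumannAlgebra H) (φ : (H →L[ℂ] H) →ₗ[ℂ] ℂ) (Gap : (H →L[ℂ] H) → Prop)
    (Let : SFam A β → Prop) (w : SFam A β) : Prop :=
  EMem M A w ∧ ∀ η : ℝ, 0 < η → ∃ f h, InV0 M A Gap Let f ∧ InV1 M A Gap Let h ∧
    ∀ᶠ Q in refF A, msqF φ (fun Q c => w Q c - f Q c - h Q c) Q ≤ η

theorem inV0_zero : InV0 M A Gap Let (fun _ _ => (0 : H →L[ℂ] H) : SFam A β) :=
  InV0.base (zero_mem M)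

theorem inV1_zero (hC : ColourData M A Mon Let t p) :
    InV1 M A Gap Let (fun _ _ => (0 : H →L[ℂ] H) : SFam A β) := by
  simpa using InV1.mk hC.let_q (inV0_zero (M := M) (Gap := Gap))

theorem msqF_add_le (hφ : IsCState M A φ) {f g : SFam A β} {Q : Part A (1 : H →L[ℂ] H)}
    (hf : ∀ c, f Q c ∈ M) (hg : ∀ c, g Q c ∈ M) :
    msqF φ (fun Q c => f Q c + g Q c) Q ≤ 2 * msqF φ f Q + 2 * msqF φ g Q := by
  rw [msqF, msqF, msqF, mul_comm 2, mul_comm 2, ← av_mul_const, ← av_mul_const, ← av_add]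
  exact av_mono fun c => by linarith [hφ.sq_add_le (hf c) (hg c)]

theorem msqF_mul_le (hφ : IsCState M A φ) {x f : SFam A β} {Q : Part A (1 : H →L[ℂ] H)}
    (hx : ∀ c, x Q c ∈ M) (hf : ∀ c, f Q c ∈ M) {C : ℝ} (hxC : ∀ c, ‖x Q c‖ ^ 2 ≤ C) :
    msqF φ (fun Q c => x Q c * f Q c) Q ≤ C * msqF φ f Q := by
  rw [msqF, msqF, mul_comm C, ← av_mul_const]
  refine av_mono fun c => (hφ.sq_mul_left (hx c) (hf c)).trans ?_
  rw [mul_comm (sq φ (f Q c))]
  exact mul_le_mul_of_nonneg_right (hxC c) (hφ.sq_nonneg' (hf c))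

theorem msqF_smul (φ : (H →L[ℂ] H) →ₗ[ℂ] ℂ) (s : ℂ) (f : SFam A β) (Q : Part A (1 : H →L[ℂ] H)) :
    msqF φ (fun Q c => s • f Q c) Q = ‖s‖ ^ 2 * msqF φ f Q := by
  rw [msqF, msqF, mul_comm, ← av_mul_const]
  simp only [sq_smul', mul_comm]
where
  sq_smul' {φ : (H →L[ℂ] H) →ₗ[ℂ] ℂ} {s : ℂ} {y : H →L[ℂ] H} :
      sq φ (s • y) = ‖s‖ ^ 2 * sq φ y := IsCState.sq_smul φ s y

theorem msqF_nonneg (hφ : IsCState M A φ) {f : SFam A β} {Q : Part A (1 : H →L[ℂ] H)}
    (hf : ∀ c, f Q c ∈ M) : 0 ≤ msqF φ f Q :=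
  av_nonneg fun c => hφ.sq_nonneg' (hf c)

theorem near_of_exact (hφ : IsCState M A φ) (hD : FreeData M A φ Mon Gap)
    (hC : ColourData M A Mon Let t p) {w f h : SFam A β} (hf : InV0 M A Gap Let f)
    (hh : InV1 M A Gap Let h) (he : ∀ᶠ Q in refF A, ∀ c, w Q c = f Q c + h Q c) :
    Near M A φ Gap Let w := by
  refine ⟨?_, fun η hη => ⟨f, h, hf, hh, ?_⟩⟩
  · filter_upwards [he, (tame_inV0 hφ hD (inV0_mono hC.let_in hf)).emem,
      (tame_inV1 hφ hD hC hh).emem] with Q e h1 h2 c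
    rw [e c]; exact add_mem (h1 c) (h2 c)
  · filter_upwards [he] with Q e
    have : msqF φ (fun Q c => w Q c - f Q c - h Q c) Q = 0 := by
      simp [msqF, e, av, sq]
    linarith

theorem near_add (hφ : IsCState M A φ) (hD : FreeData M A φ Mon Gap)
    (hC : ColourData M A Mon Let t p) {v w : SFam A β} (hv : Near M A φ Gap Let v)
    (hw : Near M A φ Gap Let w) : Near M A φ Gap Let fun Q c => v Q c + w Q c := by
  refine ⟨?_, fun η hη => ?_⟩
  · filter_upwards [hv.1, hw.1] with Q h1 h2 c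
    exact add_mem (h1 c) (h2 c)
  obtain ⟨f, h, hf, hh, e⟩ := hv.2 (η / 4) (by positivity)
  obtain ⟨f', h', hf', hh', e'⟩ := hw.2 (η / 4) (by positivity)
  refine ⟨_, _, hf.add hf', hh.add hh', ?_⟩
  filter_upwards [e, e', hv.1, hw.1, (tame_inV0 hφ hD (inV0_mono hC.let_in hf)).emem,
    (tame_inV1 hφ hD hC hh).emem, (tame_inV0 hφ hD (inV0_mono hC.let_in hf')).emem,
    (tame_inV1 hφ hD hC hh').emem] with Q e e' a b c1 c2 c3 c4
  have := msqF_add_le hφ (f := fun Q c => v Q c - f Q c - h Q c)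
    (g := fun Q c => w Q c - f' Q c - h' Q c) (Q := Q)
    (fun c => sub_mem (sub_mem (a c) (c1 c)) (c2 c)) (fun c => sub_mem (sub_mem (b c) (c3 c)) (c4 c))
  have eq : (fun Q c => v Q c + w Q c - (f Q c + f' Q c) - (h Q c + h' Q c) : SFam A β) =
      fun Q c => (v Q c - f Q c - h Q c) + (w Q c - f' Q c - h' Q c) := by
    funext Q c; abel
  rw [eq]
  linarith

theorem near_smul (hφ : IsCState M A φ) {w : SFam A β} (s : ℂ) (hw : Near M A φ Gap Let w) :
    Near M A φ Gap Let fun Q c => s • w Q c := by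
  refine ⟨hw.1.mono fun Q h c => smul_mem' M (h c) s, fun η hη => ?_⟩
  obtain ⟨f, h, hf, hh, e⟩ := hw.2 (η / (‖s‖ ^ 2 + 1)) (by positivity)
  refine ⟨_, _, hf.smul s, hh.smul s, e.mono fun Q hQ => ?_⟩
  simp only [← smul_sub]
  rw [msqF_smul φ s (fun Q c => w Q c - f Q c - h Q c) Q]
  rw [le_div_iff₀ (by positivity)] at hQ
  rcases le_or_gt 0 (msqF φ (fun Q c => w Q c - f Q c - h Q c) Q) with h0 | h0
  · nlinarith
  · nlinarith [sq_nonneg ‖s‖, mul_nonneg (sq_nonneg ‖s‖) (neg_nonneg.2 h0.le)]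

/-- A bounded left factor keeps `Near` if it does so on the two spans. -/
theorem near_mul (hφ : IsCState M A φ) (hD : FreeData M A φ Mon Gap)
    (hC : ColourData M A Mon Let t p) {x : SFam A β} (hx : Tame M A φ x)
    (h0 : ∀ f, InV0 M A Gap Let f → Near M A φ Gap Let fun Q c => x Q c * f Q c)
    (h1 : ∀ h, InV1 M A Gap Let h → Near M A φ Gap Let fun Q c => x Q c * h Q c)
    {w : SFam A β} (hw : Near M A φ Gap Let w) :
    Near M A φ Gap Let fun Q c => x Q c * w Q c := by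
  refine ⟨?_, fun η hη => ?_⟩
  · filter_upwards [hx.emem, hw.1] with Q a b c
    exact mul_mem (a c) (b c)
  obtain ⟨⟨K, hK0, hK⟩, -⟩ := hx
  obtain ⟨f, h, hf, hh, e⟩ := hw.2 (η / (4 * (K ^ 2 + 1))) (by positivity)
  obtain ⟨f', h', hf', hh', e'⟩ := (near_add hφ hD hC (h0 f hf) (h1 h hh)).2 (η / 4) (by positivity)
  refine ⟨f', h', hf', hh', ?_⟩
  filter_upwards [e, e', hK, hw.1, (tame_inV0 hφ hD (inV0_mono hC.let_in hf)).emem,
    (tame_inV1 hφ hD hC hh).emem, (tame_inV0 hφ hD (inV0_mono hC.let_in hf')).emem,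
    (tame_inV1 hφ hD hC hh').emem] with Q e e' k b c1 c2 c3 c4
  have hd : ∀ c, w Q c - f Q c - h Q c ∈ M := fun c => sub_mem (sub_mem (b c) (c1 c)) (c2 c)
  have m1 := msqF_mul_le hφ (x := x) (f := fun Q c => w Q c - f Q c - h Q c) (Q := Q)
    (fun c => (k c).1) hd (C := K ^ 2) fun c => pow_le_pow_left₀ (norm_nonneg _) (k c).2 2
  have m2 := msqF_add_le hφ (f := fun Q c => x Q c * (w Q c - f Q c - h Q c))
    (g := fun Q c => x Q c * f Q c + x Q c * h Q c - f' Q c - h' Q c) (Q := Q)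
    (fun c => mul_mem (k c).1 (hd c)) fun c => sub_mem (sub_mem
      (add_mem (mul_mem (k c).1 (c1 c)) (mul_mem (k c).1 (c2 c))) (c3 c)) (c4 c)
  have eq : (fun Q c => x Q c * w Q c - f' Q c - h' Q c : SFam A β) = fun Q c =>
      x Q c * (w Q c - f Q c - h Q c) + (x Q c * f Q c + x Q c * h Q c - f' Q c - h' Q c) := by
    funext Q c; simp only [mul_sub]; abel
  rw [eq]
  have hn := msqF_nonneg hφ (f := fun Q c => w Q c - f Q c - h Q c) (Q := Q) hd
  rw [le_div_iff₀ (by positivity)] at e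
  nlinarith

theorem near_step (hφ : IsCState M A φ) (hD : FreeData M A φ Mon Gap) [Nonempty β]
    (hC : ColourData M A Mon Let t p) {x : H →L[ℂ] H} (hx : x ∈ M) {L f : SFam A β}
    (hL : Let L) (hf : InV0 M A Gap Let f) :
    Near M A φ Gap Let fun Q c => x * (L Q c * f Q c) := by
  have hT := tame_mul (tame_inLet hφ hD (hC.let_in _ hL))
    (tame_inV0 hφ hD (inV0_mono hC.let_in hf))
  refine ⟨hT.emem.mono fun Q h c => mul_mem hx (h c), fun η hη => ?_⟩
  obtain ⟨d, C, hd, happ⟩ := hD.approx x hx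
  obtain ⟨δ, hδ, hs⟩ := hT.2 C η hη
  obtain ⟨k, s, v, hv, hC', hsq⟩ := happ δ hδ
  have hsum : ∀ S : Finset (Fin k), InV1 M A Gap Let
      fun Q c => ∑ i ∈ S, s i • (v i * (L Q c * f Q c)) := by
    intro S
    induction S using Finset.induction_on with
    | empty => simpa using inV1_zero (Gap := Gap) hC
    | @insert i S hi ih =>
      simp only [Finset.sum_insert hi]
      refine InV1.add (InV1.smul _ ?_) ih
      simpa only [mul_assoc] using InV1.mk (hC.let_left _ _ (hv i) hL) hf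
  refine ⟨_, _, InV0.step hd hL hf, hsum Finset.univ, ?_⟩
  filter_upwards [hs, hT.emem] with Q hQ hm
  refine le_trans (av_mono fun c => ?_) (le_of_eq (av_const η))
  have e : x * (L Q c * f Q c) - d * (L Q c * f Q c) - ∑ i, s i • (v i * (L Q c * f Q c)) =
      (x - d - ∑ i, s i • v i) * (L Q c * f Q c) := by
    simp [sub_mul, Finset.sum_mul]
  dsimp only
  rw [e]
  exact hQ c _ (sub_mem (sub_mem hx (hD.gap_mem _ hd))
    (sum_mem fun i _ => smul_mem' M (hD.mon_mem _ (hv i)) _)) hC' hsq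

theorem near_const_mul (hφ : IsCState M A φ) (hD : FreeData M A φ Mon Gap) [Nonempty β]
    (hC : ColourData M A Mon Let t p) {x : H →L[ℂ] H} (hx : x ∈ M) {w : SFam A β}
    (hw : Near M A φ Gap Let w) : Near M A φ Gap Let fun Q c => x * w Q c := by
  refine near_mul hφ hD hC (tame_const hφ hx) (fun f hf => ?_) (fun h hh => ?_) hw
  · induction hf with
    | base hb =>
      exact near_of_exact hφ hD hC (InV0.base (mul_mem hx hb)) (inV1_zero hC)
        (.of_forall fun Q c => by simp)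
    | @step d L f hd hL hf _ =>
      simpa only [mul_assoc] using near_step hφ hD hC (mul_mem hx (hD.gap_mem _ hd)) hL hf
    | add _ _ i1 i2 => simpa only [mul_add] using near_add hφ hD hC i1 i2
    | smul s _ ih => simpa only [mul_smul_comm] using near_smul hφ s ih
  · induction hh with
    | mk hL hf => exact near_step hφ hD hC hx hL hf
    | add _ _ i1 i2 => simpa only [mul_add] using near_add hφ hD hC i1 i2
    | smul s _ ih => simpa only [mul_smul_comm] using near_smul hφ s ih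

theorem inV0_mon_mul (hD : FreeData M A φ Mon Gap) {v : H →L[ℂ] H} (hv : Mon v) {f : SFam A β}
    (hf : InV0 M A Gap Let f) : InV0 M A Gap Let fun Q c => v * f Q c := by
  induction hf with
  | base hb => exact .base (mul_mem (hD.mon_mem _ hv) hb)
  | step hd hL hf _ => simpa only [mul_assoc] using InV0.step (hD.gap_left _ _ hv hd) hL hf
  | add _ _ i1 i2 => simpa only [mul_add] using i1.add i2
  | smul s _ ih => simpa only [mul_smul_comm] using ih.smul s

theorem near_q_mul (hφ : IsCState M A φ) (hD : FreeData M A φ Mon Gap) [Nonempty β]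
    (hC : ColourData M A Mon Let t p) {w : SFam A β} (hw : Near M A φ Gap Let w) :
    Near M A φ Gap Let fun Q c => (p Q c - (t : ℂ) • 1) * w Q c := by
  refine near_mul hφ hD hC (tame_inLet hφ hD (hC.let_in _ hC.let_q)) (fun f hf => ?_)
    (fun h hh => ?_) hw
  · exact near_of_exact hφ hD hC inV0_zero (InV1.mk hC.let_q hf) (.of_forall fun Q c => by simp)
  · induction hh with
    | @mk L f hL hf =>
      obtain ⟨k, s, v, L', hv, hL', e⟩ := hC.let_q_mul L hL
      have hsum : ∀ S : Finset (Fin k), InV0 M A Gap Let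
          fun Q c => ∑ i ∈ S, s i • (v i * f Q c) := by
        intro S
        induction S using Finset.induction_on with
        | empty => simpa using inV0_zero (M := M) (A := A) (Gap := Gap) (Let := Let)
        | @insert i S hi ih =>
          simp only [Finset.sum_insert hi]
          exact InV0.add (InV0.smul _ (inV0_mon_mul hD (hv i) hf)) ih
      refine near_of_exact hφ hD hC (hsum Finset.univ) (InV1.mk hL' hf) (e.mono fun Q h c => ?_)
      simp only [← mul_assoc, h c, add_mul, Finset.sum_mul, smul_mul_assoc]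
    | add _ _ i1 i2 => simpa only [mul_add] using near_add hφ hD hC i1 i2
    | smul s _ ih => simpa only [mul_smul_comm] using near_smul hφ s ih

end Vale.Agent.P078.General.Single
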