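import Vale.Agent.P078.Free.Near

/-!
# Compressions by a random colour have small moments
-/

namespace Vale.Agent.P078.General.Single

open scoped InnerProductSpace Topology ComplexOrder
open Filter

universe u

variable {H : Type u} [NormedAddCommGroup H] [InnerProductSpace ℂ H] [CompleteSpace H]
variable {M A : VonNeumannAlgebra H} {φ : (H →L[ℂ] H) →ₗ[ℂ] ℂ}

theorem av_le_two {α : Type*} [Fintype α] {f g h : α → ℝ} (a b : ℝ)
    (H0 : ∀ c, f c ≤ g c * a + h c * b) : av f ≤ av g * a + av h * b := by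
  rw [← av_mul_const, ← av_mul_const, ← av_add]
  exact av_mono H0

theorem av_le_three {α : Type*} [Fintype α] {f g h k : α → ℝ} (a b d : ℝ)
    (H0 : ∀ c, f c ≤ g c * a + h c * b + k c * d) : av f ≤ av g * a + av h * b + av k * d := by
  rw [← av_mul_const, ← av_mul_const, ← av_mul_const, ← av_add, ← av_add]
  exact av_mono H0

theorem norm_colour_le {t : ℝ} (ht : 0 ≤ t) (ht1 : t ≤ 1) {p : H →L[ℂ] H}
    (hp : IsStarProjection p) : ‖p - (t : ℂ) • 1‖ ≤ 2 := by
  refine (norm_sub_le _ _).trans ?_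
  have h1 : ‖(t : ℂ) • (1 : H →L[ℂ] H)‖ ≤ 1 := by
    rw [norm_smul, Complex.norm_real, Real.norm_of_nonneg ht]
    exact (mul_le_of_le_one_right ht (opNorm_proj_le_one (IsStarProjection.one (R := H →L[ℂ] H)))).trans
      ht1
  linarith [opNorm_proj_le_one hp]

theorem star_colour (t : ℝ) {p : H →L[ℂ] H} (hp : IsStarProjection p) :
    star (p - (t : ℂ) • 1) = p - (t : ℂ) • 1 := by
  simp [hp.isSelfAdjoint.star_eq]

theorem colour_sq (t : ℝ) {p : H →L[ℂ] H} (hp : IsStarProjection p) :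
    (p - (t : ℂ) • 1) * (p - (t : ℂ) • 1) =
      ((t * (1 - t) : ℝ) : ℂ) • 1 + ((1 - 2 * t : ℝ) : ℂ) • (p - (t : ℂ) • 1) := by
  simp only [sub_mul, mul_sub, smul_mul_assoc, mul_smul_comm, mul_one, one_mul, smul_sub, smul_smul,
    hp.isIdempotentElem.eq, Complex.ofReal_mul, Complex.ofReal_sub, Complex.ofReal_one,
    Complex.ofReal_ofNat, sub_smul, one_smul]
  module

theorem re_inner_le (hφ : IsCState M A φ) {a b : H →L[ℂ] H} (ha : a ∈ M) (hb : b ∈ M) (s : ℝ) :
    0 ≤ sq φ a + 2 * s * (φ (star a * b)).re + s ^ 2 * sq φ b := by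
  have h := hφ.sq_nonneg' (add_mem ha (smul_mem' M hb (s : ℂ)))
  rw [hφ.sq_add_smul ha hb, Complex.re_ofReal_mul, Complex.normSq_ofReal] at h
  linarith

theorem sq_four_le (hφ : IsCState M A φ) {a b c d : H →L[ℂ] H} (ha : a ∈ M) (hb : b ∈ M)
    (hc : c ∈ M) (hd : d ∈ M) :
    sq φ (a + b + (c + d)) ≤ 4 * sq φ a + 4 * sq φ b + 4 * sq φ c + 4 * sq φ d := by
  linarith [hφ.sq_add_le (add_mem ha hb) (add_mem hc hd), hφ.sq_add_le ha hb, hφ.sq_add_le hc hd]

/-- The decomposition of one step, in a fixed partition. -/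
theorem step_fixed (hφ : IsCState M A φ) {α : Type*} [Fintype α] [Nonempty α] {t : ℝ} (ht : 0 < t)
    (ht1 : t ≤ 1) {y : H →L[ℂ] H} (hy : y ∈ M) {p w f h : α → H →L[ℂ] H}
    (hp : ∀ c, IsStarProjection (p c)) (hpM : ∀ c, p c ∈ M) (hw : ∀ c, w c ∈ M)
    (hf : ∀ c, f c ∈ M) (hh : ∀ c, h c ∈ M) {ε : ℝ} (hε : 0 ≤ ε)
    (h1 : |av fun c => (φ (star (f c) * ((p c - (t : ℂ) • 1) * f c))).re| ≤ ε)
    (h2 : |av fun c => (φ (star (f c) * h c)).re| ≤ ε)
    (h3 : |av fun c => (φ (star (y * h c) * ((p c - (t : ℂ) • 1) * (y * h c)))).re| ≤ ε)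
    (h4 : (av fun c => sq φ ((p c - (t : ℂ) • 1) * w c - f c - h c)) ≤ ε) :
    (av fun c => sq φ (p c * (y * (p c * w c)))) ≤
      400 * t * ‖y‖ ^ 2 * (av fun c => sq φ (w c)) +
        (16 * ‖y‖ ^ 2 / t + 544 * ‖y‖ ^ 2 + 16) * ε := by
  set Y := ‖y‖ ^ 2 with hY
  have hY0 : 0 ≤ Y := sq_nonneg _
  set q : α → H →L[ℂ] H := fun c => p c - (t : ℂ) • 1 with hq
  have hqM : ∀ c, q c ∈ M := fun c => sub_mem (hpM c) (smul_one_mem M _)
  have hqs : ∀ c, star (q c) = q c := fun c => star_colour t (hp c)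
  have hq2 : ∀ c, ‖q c‖ ^ 2 ≤ 4 := fun c => by
    nlinarith [norm_colour_le ht.le ht1 (hp c), norm_nonneg (q c)]
  have hqsq : ∀ c u, u ∈ M → sq φ (q c * u) =
      t * (1 - t) * sq φ u + (1 - 2 * t) * (φ (star u * (q c * u))).re := by
    intro c u _
    have e : star (q c * u) * (q c * u) = ((t * (1 - t) : ℝ) : ℂ) • (star u * u) +
        ((1 - 2 * t : ℝ) : ℂ) • (star u * (q c * u)) := by
      rw [star_mul, hqs, show star u * q c * (q c * u) = star u * ((q c * q c) * u) by
        simp only [mul_assoc], hq, colour_sq t (hp c), add_mul, mul_add, smul_mul_assoc, one_mul,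
        mul_smul_comm, smul_mul_assoc, mul_smul_comm]
    simp only [sq, e, map_add, map_smul, Complex.add_re, smul_eq_mul, Complex.re_ofReal_mul]
  have hqb : ∀ u : α → H →L[ℂ] H, (∀ c, u c ∈ M) →
      (av fun c => sq φ (q c * u c)) ≤ t * (av fun c => sq φ (u c)) +
        |av fun c => (φ (star (u c) * (q c * u c))).re| := by
    intro u hu
    have h0 := av_nonneg fun c => hφ.sq_nonneg' (hu c)
    rw [show (fun c => sq φ (q c * u c)) = fun c => sq φ (u c) * (t * (1 - t)) +
      (φ (star (u c) * (q c * u c))).re * (1 - 2 * t) from funext fun c => by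
        rw [hqsq c _ (hu c)]; ring, av_add, av_mul_const, av_mul_const]
    refine add_le_add (by nlinarith [mul_nonneg h0 (sq_nonneg t)]) ?_
    refine (le_abs_self _).trans ((abs_mul _ _).trans_le (mul_le_of_le_one_right (abs_nonneg _) ?_))
    rw [abs_le]; constructor <;> linarith
  set e : α → H →L[ℂ] H := fun c => q c * w c - f c - h c with he
  have heM : ∀ c, e c ∈ M := fun c => sub_mem (sub_mem (mul_mem (hqM c) (hw c)) (hf c)) (hh c)
  set W := av fun c => sq φ (w c) with hW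
  set F := av fun c => sq φ (f c) with hF
  set G := av fun c => sq φ (h c) with hG
  set E := av fun c => sq φ (e c) with hE
  have hW0 : 0 ≤ W := av_nonneg fun c => hφ.sq_nonneg' (hw c)
  have hmulY : ∀ {u : H →L[ℂ] H}, u ∈ M → sq φ (y * u) ≤ Y * sq φ u := fun hu =>
    hφ.sq_mul_left hy hu
  have hmulq : ∀ c {u : H →L[ℂ] H}, u ∈ M → sq φ (q c * u) ≤ 4 * sq φ u := fun c u hu =>
    (hφ.sq_mul_left (hqM c) hu).trans (mul_le_mul_of_nonneg_right (hq2 c) (hφ.sq_nonneg' hu))
  -- the part in `InV0` is small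
  have hF1 : F ≤ 2 * t * W + (1 / (2 * t) + 4) * ε := by
    have hpt : ∀ c, sq φ (f c) ≤ sq φ (q c * f c) * (1 / (4 * t)) + sq φ (w c) * t +
        ((φ (star (f c) * h c)).re * (-1) + (sq φ (f c) * (1 / 4) + sq φ (e c) * 1)) := by
      intro c
      have a1 := re_inner_le hφ (mul_mem (hqM c) (hf c)) (hw c) (-(2 * t))
      have a2 := re_inner_le hφ (hf c) (heM c) 2
      have e1 : (φ (star (q c * f c) * w c)).re =
          sq φ (f c) + (φ (star (f c) * h c)).re + (φ (star (f c) * e c)).re := by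
        have : star (q c * f c) * w c =
            star (f c) * f c + star (f c) * h c + star (f c) * e c := by
          rw [star_mul, hqs, ← mul_add, ← mul_add, mul_assoc]
          congr 1
          simp only [he]; abel
        rw [this, map_add, map_add, Complex.add_re, Complex.add_re]
        rfl
      rw [e1] at a1
      have a3 : sq φ (f c) + (φ (star (f c) * h c)).re + (φ (star (f c) * e c)).re ≤
          sq φ (q c * f c) * (1 / (4 * t)) + sq φ (w c) * t := by
        rw [← sub_nonneg]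
        refine le_of_mul_le_mul_left ?_ (show 0 < 4 * t by positivity)
        rw [mul_zero, mul_sub, mul_add, ← mul_assoc, mul_comm (4 * t) (sq φ _), mul_assoc (sq φ _),
          mul_one_div_cancel (by positivity), mul_one]
        nlinarith
      linarith
    have := av_mono hpt
    simp only [av_add, av_mul_const] at this
    rw [← hF, ← hW, ← hE] at this
    have b1 := (hqb f hf).trans (add_le_add le_rfl h1)
    rw [← hF] at b1
    have b2 := mul_le_mul_of_nonneg_right b1 (show (0 : ℝ) ≤ 1 / (4 * t) by positivity)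
    have b3 : (t * F + ε) * (1 / (4 * t)) = F / 4 + ε * (1 / (4 * t)) := by field_simp
    rw [b3] at b2
    have b4 : (1 / (2 * t) + 4) * ε = 2 * (ε * (1 / (4 * t))) + 4 * ε := by field_simp; ring
    rw [b4]
    linarith [(abs_le.1 h2).1]
  have hG1 : G ≤ 8 * W + 4 * F + 4 * ε := by
    have hpt : ∀ c, sq φ (h c) ≤ sq φ (w c) * 8 + sq φ (f c) * 4 + sq φ (e c) * 4 := by
      intro c
      have e1 : h c = q c * w c + (-1 : ℂ) • (f c + e c) := by
        simp only [he]; module
      have a1 := hφ.sq_add_le (mul_mem (hqM c) (hw c))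
        (smul_mem' M (add_mem (hf c) (heM c)) (-1))
      rw [← e1, IsCState.sq_smul, norm_neg, norm_one, one_pow, one_mul] at a1
      linarith [hmulq c (hw c), hφ.sq_add_le (hf c) (heM c)]
    have := av_le_three 8 4 4 hpt
    rw [← hG, ← hW, ← hF, ← hE] at this
    linarith
  -- the four terms
  have hT1 : (av fun c => sq φ (q c * (y * (q c * w c)))) ≤
      2 * (4 * Y * F) + 4 * (t * Y * G + ε) + 4 * (4 * Y * ε) := by
    have hpt : ∀ c, sq φ (q c * (y * (q c * w c))) ≤
        sq φ (f c) * (2 * (4 * Y)) + sq φ (q c * (y * h c)) * 4 + sq φ (e c) * (4 * (4 * Y)) := by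
      intro c
      have e1 : q c * (y * (q c * w c)) =
          q c * (y * f c) + (q c * (y * h c) + q c * (y * e c)) := by
        rw [← mul_add, ← mul_add, ← mul_add, ← mul_add]
        simp only [he]; congr 2; abel
      rw [e1]
      have m1 := fun u (hu : u ∈ M) => mul_mem (hqM c) (mul_mem hy hu)
      have n1 : ∀ u, u ∈ M → sq φ (q c * (y * u)) ≤ 4 * (Y * sq φ u) := fun u hu =>
        (hmulq c (mul_mem hy hu)).trans (mul_le_mul_of_nonneg_left (hmulY hu) (by norm_num))
      linarith [hφ.sq_add_le (m1 _ (hf c)) (add_mem (m1 _ (hh c)) (m1 _ (heM c))),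
        hφ.sq_add_le (m1 _ (hh c)) (m1 _ (heM c)), n1 _ (hf c), n1 _ (heM c)]
    have := av_le_three _ _ _ hpt
    rw [← hF, ← hE] at this
    have b1 := (hqb (fun c => y * h c) fun c => mul_mem hy (hh c)).trans (add_le_add le_rfl h3)
    have b2 : (av fun c => sq φ (y * h c)) ≤ Y * G := by
      rw [mul_comm, hG, ← av_mul_const]
      exact av_mono fun c => (hmulY (hh c)).trans_eq (mul_comm _ _)
    have b3 := mul_le_mul_of_nonneg_left b2 ht.le
    have b4 := mul_le_mul_of_nonneg_right h4 (show 0 ≤ 4 * (4 * Y) by positivity)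
    linarith
  have hpt : ∀ c, sq φ (p c * (y * (p c * w c))) ≤
      sq φ (q c * (y * (q c * w c))) * 4 + sq φ (w c) * (36 * t * Y) := by
    intro c
    have e1 : p c * (y * (p c * w c)) = q c * (y * (q c * w c)) +
        (t : ℂ) • (q c * (y * w c)) + ((t : ℂ) • (y * (q c * w c)) +
          ((t : ℂ) * t) • (y * w c)) := by
      simp only [hq, sub_mul, mul_sub, smul_mul_assoc, mul_smul_comm, one_mul, smul_sub, smul_smul]
      abel
    rw [e1]
    have k2 : sq φ ((t : ℂ) • (q c * (y * w c))) ≤ t ^ 2 * (4 * (Y * sq φ (w c))) := by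
      rw [IsCState.sq_smul, Complex.norm_real, Real.norm_of_nonneg ht.le]
      exact mul_le_mul_of_nonneg_left ((hmulq c (mul_mem hy (hw c))).trans
        (mul_le_mul_of_nonneg_left (hmulY (hw c)) (by norm_num))) (sq_nonneg t)
    have k3 : sq φ ((t : ℂ) • (y * (q c * w c))) ≤ t ^ 2 * (Y * (4 * sq φ (w c))) := by
      rw [IsCState.sq_smul, Complex.norm_real, Real.norm_of_nonneg ht.le]
      exact mul_le_mul_of_nonneg_left ((hmulY (mul_mem (hqM c) (hw c))).trans
        (mul_le_mul_of_nonneg_left (hmulq c (hw c)) hY0)) (sq_nonneg t)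
    have k4 : sq φ (((t : ℂ) * t) • (y * w c)) ≤ (t * t) ^ 2 * (Y * sq φ (w c)) := by
      rw [IsCState.sq_smul, norm_mul, Complex.norm_real, Real.norm_of_nonneg ht.le]
      exact mul_le_mul_of_nonneg_left (hmulY (hw c)) (sq_nonneg _)
    have k5 : 0 ≤ Y * sq φ (w c) := mul_nonneg hY0 (hφ.sq_nonneg' (hw c))
    have k6 : t ^ 2 * (Y * sq φ (w c)) ≤ t * (Y * sq φ (w c)) :=
      mul_le_mul_of_nonneg_right (by nlinarith) k5
    have k7 : (t * t) ^ 2 * (Y * sq φ (w c)) ≤ t * (Y * sq φ (w c)) :=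
      mul_le_mul_of_nonneg_right (by nlinarith [mul_le_one₀ ht1 ht.le ht1, mul_pos ht ht]) k5
    linarith [sq_four_le hφ (mul_mem (hqM c) (mul_mem hy (mul_mem (hqM c) (hw c))))
      (smul_mem' M (mul_mem (hqM c) (mul_mem hy (hw c))) (t : ℂ))
      (smul_mem' M (mul_mem hy (mul_mem (hqM c) (hw c))) (t : ℂ))
      (smul_mem' M (mul_mem hy (hw c)) ((t : ℂ) * t))]
  refine (av_le_two _ _ hpt).trans ?_
  rw [← hW]
  have htY : 0 ≤ t * Y := mul_nonneg ht.le hY0
  have g1 := mul_le_mul_of_nonneg_left hF1 hY0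
  have g2 := mul_le_mul_of_nonneg_left hG1 htY
  have g3 := mul_le_mul_of_nonneg_left hF1 htY
  have g4 : t * Y * ((1 / (2 * t) + 4) * ε) = Y * ε / 2 + 4 * (t * Y * ε) := by field_simp
  have g5 : Y * ((1 / (2 * t) + 4) * ε) = Y * ε / (2 * t) + 4 * (Y * ε) := by ring
  have g6 : t * Y * (2 * t * W) ≤ 2 * (t * Y * W) := by
    nlinarith [mul_nonneg htY hW0]
  have g7 : t * Y * ε ≤ Y * ε := mul_le_mul_of_nonneg_right (mul_le_of_le_one_left hY0 ht1) hε
  have g8 : (16 * Y / t + 544 * Y + 16) * ε = 32 * (Y * ε / (2 * t)) + 544 * (Y * ε) + 16 * ε := by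
    field_simp; ring
  rw [g8]
  nlinarith [mul_nonneg hY0 hε, mul_nonneg htY hW0]

variable {Mon Gap : (H →L[ℂ] H) → Prop} {β : Type} [Fintype β] [Nonempty β]
variable {Let : SFam A β → Prop} {t : ℝ} {p : SFam A β}

theorem inner_small (hφ : IsCState M A φ) (hD : FreeData M A φ Mon Gap)
    (hC : ColourData M A Mon Let t p) {f h : SFam A β} (hf : InV0 M A Gap Let f)
    (hh : InV1 M A Gap Let h) :
    Tendsto (fun Q => avC fun c => φ (star (f Q c) * h Q c)) (refF A) (𝓝 0) := by
  induction hh with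
  | mk hL hg =>
    exact orth_small_free hφ hD (inV0_mono hC.let_in hf) _ _ (hC.let_in _ hL)
      (inV0_mono hC.let_in hg)
  | add _ _ i1 i2 =>
    refine Tendsto.congr (fun Q => ?_) (by simpa using i1.add i2)
    simp [mul_add, avC_add']
  | smul s _ ih =>
    have := ih.const_mul s
    rw [mul_zero] at this
    refine this.congr fun Q => ?_
    simp [avC_smul]

theorem inner_small_re (hφ : IsCState M A φ) (hD : FreeData M A φ Mon Gap)
    (hC : ColourData M A Mon Let t p) {f h : SFam A β} (hf : InV0 M A Gap Let f)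
    (hh : InV1 M A Gap Let h) {ε : ℝ} (hε : 0 < ε) :
    ∀ᶠ Q in refF A, |av fun c => (φ (star (f Q c) * h Q c)).re| ≤ ε := by
  filter_upwards [(inner_small hφ hD hC hf hh).norm.eventually
    (eventually_le_nhds (show ‖(0 : ℂ)‖ < ε by simpa using hε))] with Q hQ
  rw [← avC_re]
  exact (Complex.abs_re_le_norm _).trans hQ

theorem inV0_gap_mul {y : H →L[ℂ] H} (hy : Gap y) {h : SFam A β} (hh : InV1 M A Gap Let h) :
    InV0 M A Gap Let fun Q c => y * h Q c := by
  induction hh with
  | mk hL hf => exact InV0.step hy hL hf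
  | add _ _ i1 i2 => simpa only [mul_add] using i1.add i2
  | smul s _ ih => simpa only [mul_smul_comm] using ih.smul s

theorem near_colour_mul (hφ : IsCState M A φ) (hD : FreeData M A φ Mon Gap)
    (hC : ColourData M A Mon Let t p) {w : SFam A β} (hw : Near M A φ Gap Let w) :
    Near M A φ Gap Let fun Q c => p Q c * w Q c := by
  simpa only [sub_mul, smul_mul_assoc, one_mul, sub_add_cancel] using
    near_add hφ hD hC (near_q_mul hφ hD hC hw) (near_smul hφ (t : ℂ) hw)

/-- The compression of a gap by a random colour. -/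
theorem step_bound_free (hφ : IsCState M A φ) (hD : FreeData M A φ Mon Gap)
    (hC : ColourData M A Mon Let t p) {y : H →L[ℂ] H} (hy : Gap y) {w : SFam A β}
    (hw : Near M A φ Gap Let w) :
    Near M A φ Gap Let (fun Q c => p Q c * (y * (p Q c * w Q c))) ∧
      ∀ η : ℝ, 0 < η → ∀ᶠ Q in refF A,
        msqF φ (fun Q c => p Q c * (y * (p Q c * w Q c))) Q ≤
          400 * t * ‖y‖ ^ 2 * msqF φ w Q + η := by
  have hyM := hD.gap_mem _ hy
  refine ⟨near_colour_mul hφ hD hC (near_const_mul hφ hD hC hyM (near_colour_mul hφ hD hC hw)),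
    fun η hη => ?_⟩
  set K := 16 * ‖y‖ ^ 2 / t + 544 * ‖y‖ ^ 2 + 16 with hK
  have hK0 : 0 < K := by have := hC.t_pos; positivity
  obtain ⟨f, h, hf, hh, he⟩ := (near_q_mul hφ hD hC hw).2 (η / K) (div_pos hη hK0)
  have hg := inV0_gap_mul hy hh
  filter_upwards [he, hw.1, (tame_inV0 hφ hD (inV0_mono hC.let_in hf)).emem,
    (tame_inV1 hφ hD hC hh).emem,
    inner_small_re hφ hD hC hf (InV1.mk hC.let_q hf) (div_pos hη hK0),
    inner_small_re hφ hD hC hf hh (div_pos hη hK0),
    inner_small_re hφ hD hC hg (InV1.mk hC.let_q hg) (div_pos hη hK0)]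
    with Q he hwM hfM hhM h1 h2 h3
  have := step_fixed hφ hC.t_pos hC.t_le hyM (hC.proj Q) (fun c => hφ.masa.le _ (hC.memA Q c))
    hwM hfM hhM (div_pos hη hK0).le h1 h2 h3 he
  rw [← hK, mul_div_cancel₀ _ hK0.ne'] at this
  exact this

/-- Moments of the compression of a gap by a random colour. -/
theorem pow_bound_free (hφ : IsCState M A φ) (hD : FreeData M A φ Mon Gap)
    (hC : ColourData M A Mon Let t p) {y : H →L[ℂ] H} (hy : Gap y) (n : ℕ) :
    Near M A φ Gap Let (fun Q c => (p Q c * y * p Q c) ^ n * p Q c) ∧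
      ∀ η : ℝ, 0 < η → ∀ᶠ Q in refF A,
        msqF φ (fun Q c => (p Q c * y * p Q c) ^ n * p Q c) Q ≤
          (400 * t * ‖y‖ ^ 2) ^ n * (t * (φ 1).re) + η := by
  induction n with
  | zero =>
    simp only [pow_zero, one_mul]
    have h1 : InV0 M A Gap Let (fun _ _ => (1 : H →L[ℂ] H) : SFam A β) := InV0.base (one_mem M)
    have hq1 := InV1.mk hC.let_q h1
    refine ⟨near_of_exact hφ hD hC (InV0.base (smul_one_mem M (t : ℂ))) hq1
      (.of_forall fun Q c => by simp), fun η hη => ?_⟩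
    filter_upwards [inner_small_re hφ hD hC h1 hq1 hη] with Q hQ
    have e : (fun c => sq φ (p Q c)) =
        fun c => t * (φ 1).re + (φ (star (1 : H →L[ℂ] H) * ((p Q c - (t : ℂ) • 1) * 1))).re := by
      funext c
      rw [sq, (hC.proj Q c).isSelfAdjoint.star_eq, (hC.proj Q c).isIdempotentElem.eq]
      simp
    rw [msqF, e, av_add, av_const]
    linarith [(abs_le.1 hQ).2]
  | succ n ih =>
    obtain ⟨hw, hb⟩ := ih
    obtain ⟨hw', hstep⟩ := step_bound_free hφ hD hC hy hw
    simp only [pow_succ' (_ : H →L[ℂ] H), mul_assoc] at hw' hstep ⊢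
    refine ⟨hw', fun η hη => ?_⟩
    set K := 400 * t * ‖y‖ ^ 2 with hK
    have hK0 : 0 ≤ K := by have := hC.t_pos; positivity
    filter_upwards [hstep (η / 2) (half_pos hη), hb (η / (2 * (K + 1))) (by positivity)] with Q a b
    simp only [mul_assoc] at b
    refine a.trans ?_
    have c1 := mul_le_mul_of_nonneg_left b hK0
    have c2 : K * (η / (2 * (K + 1))) ≤ η / 2 := by
      rw [← mul_div_assoc, div_le_iff₀ (by positivity)]; nlinarith
    have c3 : K ^ (n + 1) * (t * (φ 1).re) = K * (K ^ n * (t * (φ 1).re)) := by ring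
    have c4 : 400 * (t * ‖y‖ ^ 2) = K := by rw [hK]; ring
    have c5 : ∀ m : ℝ, 400 * (t * (‖y‖ ^ 2 * m)) = K * m := fun m => by rw [hK]; ring
    rw [c4, c5]
    linarith

end Vale.Agent.P078.General.Single
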