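import Vale.Agent.P078.Single.Moments

/-!
# Coincidences across a gap with diffuse conjugates

As `Single/Moments`, but only one gap between the coinciding positions has to be diffuse; the gaps
after it only have to conjugate `A` into itself.
-/

namespace Vale.Agent.P078.General.Single

open scoped InnerProductSpace Topology ComplexOrder
open Filter

universe u

variable {H : Type u} [NormedAddCommGroup H] [InnerProductSpace ℂ H] [CompleteSpace H]
variable {M A : VonNeumannAlgebra H} {φ : (H →L[ℂ] H) →ₗ[ℂ] ℂ}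

/-- `n` conjugates `A` into itself. -/
def Conj (A : VonNeumannAlgebra H) (n : H →L[ℂ] H) : Prop := ∀ a ∈ A, n * a * star n ∈ A

/-- The product `m j * m (j + 1) * ⋯ * m (j + d)`. -/
noncomputable def seg (m : ℕ → H →L[ℂ] H) (j : ℕ) : ℕ → H →L[ℂ] H
  | 0 => m j
  | d + 1 => m j * seg m (j + 1) d

omit [CompleteSpace H] in
theorem seg_shift (m : ℕ → H →L[ℂ] H) : ∀ (j d : ℕ), seg (fun x => m (x + 1)) j d = seg m (j + 1) d
  | j, 0 => rfl
  | j, d + 1 => by rw [seg, seg, seg_shift m (j + 1) d]

theorem seg_mem (M : VonNeumannAlgebra H) {m : ℕ → H →L[ℂ] H} (hm : ∀ x, m x ∈ M) :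
    ∀ (j d : ℕ), seg m j d ∈ M
  | j, 0 => hm j
  | j, d + 1 => mul_mem (hm j) (seg_mem M hm (j + 1) d)

theorem seg_conj {m : ℕ → H →L[ℂ] H} : ∀ (d j : ℕ), (∀ x, j ≤ x → x ≤ j + d → Conj A (m x)) →
    Conj A (seg m j d)
  | 0, j, h => h j le_rfl le_rfl
  | d + 1, j, h => fun a ha => by
    have e : seg m j (d + 1) * a * star (seg m j (d + 1)) =
        m j * (seg m (j + 1) d * a * star (seg m (j + 1) d)) * star (m j) := by
      simp only [seg, star_mul, mul_assoc]
    rw [e]
    exact h j le_rfl (by omega) _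
      (seg_conj d (j + 1) (fun x h0 h1 => h x (by omega) (by omega)) a ha)

/-- Conjugating gaps collapse the sum over all positions. -/
theorem sum_word_conj (hc : ∀ a ∈ A, ∀ b ∈ A, Commute a b) (Q : Part A (1 : H →L[ℂ] H)) :
    ∀ (n : ℕ) (m : ℕ → H →L[ℂ] H), (∀ x, 0 < x → x ≤ n → Conj A (m x)) → ∀ a ∈ A,
      ∑ t : Fin n → Fin Q.n, word Q.p m t * a * star (word Q.p m t) = seg m 0 n * a * star (seg m 0 n)
  | 0, m, _, a, _ => by simp [word_zero, seg]
  | n + 1, m, h, a, ha => by
    have ih := sum_word_conj hc Q n (fun x => m (x + 1))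
      (fun x h0 h1 => h (x + 1) (by omega) (by omega)) a ha
    rw [seg_shift] at ih
    have hb : seg m 1 n * a * star (seg m 1 n) ∈ A :=
      seg_conj n 1 (fun x h0 h1 => h x (by omega) (by omega)) a ha
    have hp : pinch Q.p (seg m 1 n * a * star (seg m 1 n)) =
        seg m 1 n * a * star (seg m 1 n) := by
      rw [Q.isPart.pinch_of_commute fun i => hc _ (Q.isPart.mem i) _ hb, mul_one]
    rw [← (Fin.consEquiv fun _ => Fin Q.n).sum_comp, Fintype.sum_prod_type]
    have e : ∀ (j : Fin Q.n) (t : Fin n → Fin Q.n),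
        word Q.p m (Fin.consEquiv (fun _ => Fin Q.n) (j, t)) * a *
          star (word Q.p m (Fin.consEquiv (fun _ => Fin Q.n) (j, t))) =
        m 0 * (Q.p j * (word Q.p (fun x => m (x + 1)) t * a *
          star (word Q.p (fun x => m (x + 1)) t)) * Q.p j) * star (m 0) := fun j t => by
      simp [word_succ, Fin.consEquiv, mul_assoc, (Q.isPart.proj j).isSelfAdjoint.star_eq]
    simp only [e, ← Finset.mul_sum, ← Finset.sum_mul, ih, zero_add]
    rw [show (∑ j, Q.p j * (seg m 1 n * a * star (seg m 1 n)) * Q.p j) =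
      pinch Q.p (seg m 1 n * a * star (seg m 1 n)) from rfl, hp]
    simp only [seg, star_mul, mul_assoc]

namespace IsCState

/-- The pinched iterated conjugations of the pieces of a partition. -/
theorem exists_coarse_free (hφ : IsCState M A φ) (j : ℕ) : ∀ (n : ℕ) (m : ℕ → H →L[ℂ] H),
    j ≤ n → (∀ x, m x ∈ M) → (∀ x, j < x → x ≤ n → Conj A (m x)) →
    Diffuse A φ (seg m j (n - j)) → ∃ C : ℝ, 0 ≤ C ∧
      (∀ (Q P : Part A (1 : H →L[ℂ] H)) (v : H), ∑ i, ‖pinch Q.p
        (∑ t : Fin n → Fin Q.n, word Q.p m t * P.p i * star (word Q.p m t)) v‖ ^ 2 ≤ C * ‖v‖ ^ 2) ∧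
      ∀ η : ℝ, 0 < η → ∃ P : Part A (1 : H →L[ℂ] H), ∀ᶠ Q in refF A, ∑ i, sq φ (pinch Q.p
        (∑ t : Fin n → Fin Q.n, word Q.p m t * P.p i * star (word Q.p m t))) ≤ η := by
  induction j with
  | zero =>
    intro n m _ hm hn hd
    rw [Nat.sub_zero] at hd
    set g := seg m 0 n with hg
    have e : ∀ (Q P : Part A (1 : H →L[ℂ] H)) i,
        (∑ t : Fin n → Fin Q.n, word Q.p m t * P.p i * star (word Q.p m t)) =
          g * P.p i * star g := fun Q P i =>
      sum_word_conj hφ.masa.comm Q n m (fun x h0 h1 => hn x h0 h1) _ (P.isPart.mem i)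
    simp only [e]
    refine ⟨‖g‖ ^ 2 * 1 * ‖star g‖ ^ 2, by positivity, fun Q P v =>
      row_pinch Q (by positivity) (row_conj _ _ zero_le_one fun v => by
        rw [one_mul]; exact P.isPart.sum_norm_sq_le v) v, fun η hη => ?_⟩
    obtain ⟨P, hP⟩ := hd (η / 4) (by positivity)
    refine ⟨P, ?_⟩
    have hgM : g ∈ M := seg_mem M hm 0 n
    have hb : ∀ i, g * P.p i * star g ∈ M := fun i =>
      mul_mem (mul_mem hgM (hφ.masa.le _ (P.isPart.mem i))) (star_mem hgM)
    have hlim : Tendsto (fun Q : Part A (1 : H →L[ℂ] H) => ∑ i, sq φ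
        (pinch Q.p (g * P.p i * star g) - expE A φ (g * P.p i * star g)))
        (refF A) (𝓝 0) := by
      have := tendsto_finsetSum Finset.univ fun i _ => (hφ.expE_spec (hb i)).2.2
      rwa [Finset.sum_const_zero] at this
    filter_upwards [hlim.eventually (eventually_le_nhds (by positivity : (0 : ℝ) < η / 4))] with Q hQ
    refine (Finset.sum_le_sum fun i _ => ?_).trans
      ((Finset.sum_add_distrib (f := fun i => 2 * sq φ (pinch Q.p (g * P.p i * star g) -
        expE A φ (g * P.p i * star g)))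
        (g := fun i => 2 * sq φ (expE A φ (g * P.p i * star g)))).trans_le ?_)
    · have := hφ.sq_add_le (sub_mem (hφ.pinch_memM Q (hb i)) (hφ.expE_memM (hb i)))
        (hφ.expE_memM (hb i))
      rwa [sub_add_cancel] at this
    · rw [← Finset.mul_sum, ← Finset.mul_sum]
      linarith
  | succ j ih =>
    intro n' m hjn hm hn' hd
    obtain ⟨n, rfl⟩ : ∃ n, n' = n + 1 := ⟨n' - 1, by omega⟩
    obtain ⟨C, hC, hrow, hsmall⟩ := ih n (fun x => m (x + 1)) (by omega) (fun x => hm (x + 1))
      (fun x h0 h1 => hn' (x + 1) (by omega) (by omega))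
      (by rwa [seg_shift, show n - j = n + 1 - (j + 1) by omega])
    have e : ∀ (Q P : Part A (1 : H →L[ℂ] H)) i,
        (∑ t : Fin (n + 1) → Fin Q.n, word Q.p m t * P.p i * star (word Q.p m t)) =
          m 0 * pinch Q.p (∑ t : Fin n → Fin Q.n, word Q.p (fun x => m (x + 1)) t * P.p i *
            star (word Q.p (fun x => m (x + 1)) t)) * star (m 0) := by
      intro Q P i
      rw [← (Fin.consEquiv fun _ => Fin Q.n).sum_comp, Fintype.sum_prod_type, pinch,
        Finset.mul_sum, Finset.sum_mul]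
      refine Finset.sum_congr rfl fun j _ => ?_
      simp only [Finset.mul_sum, Finset.sum_mul]
      refine Finset.sum_congr rfl fun t _ => ?_
      simp [word_succ, Fin.consEquiv, mul_assoc, (Q.isPart.proj j).isSelfAdjoint.star_eq]
    simp only [e]
    refine ⟨‖m 0‖ ^ 2 * C * ‖star (m 0)‖ ^ 2, by positivity, fun Q P v =>
      row_pinch Q (by positivity) (row_conj _ _ hC (hrow Q P)) v, fun η hη => ?_⟩
    obtain ⟨δ, hδ, hconj⟩ := hφ.conj_small (star_mem (hm 0)) hC
      (div_pos hη (by positivity : (0 : ℝ) < ‖m 0‖ ^ 2 + 1))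
    obtain ⟨P, hP⟩ := hsmall (δ / 2) (half_pos hδ)
    refine ⟨P, hP.mono fun Q hQ => ?_⟩
    set U := fun i => pinch Q.p (∑ t : Fin n → Fin Q.n, word Q.p (fun x => m (x + 1)) t * P.p i *
            star (word Q.p (fun x => m (x + 1)) t)) with hU
    have hp : ∀ j, Q.p j ∈ M := fun j => hφ.masa.le _ (Q.isPart.mem j)
    have hUM : ∀ i, U i ∈ M := fun i => hφ.pinch_memM Q (sum_mem fun t _ =>
      mul_mem (mul_mem (word_mem M hp _ (fun x => hm (x + 1)) t) (hφ.masa.le _ (P.isPart.mem i)))
        (star_mem (word_mem M hp _ (fun x => hm (x + 1)) t)))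
    have h1 := hconj _ U hUM (hrow Q P) (lt_of_le_of_lt hQ (half_lt_self hδ))
    rw [le_div_iff₀ (by positivity)] at h1
    calc ∑ i, sq φ (pinch Q.p (m 0 * U i * star (m 0)))
        ≤ ∑ i, ‖m 0‖ ^ 2 * sq φ (U i * star (m 0)) := Finset.sum_le_sum fun i _ => by
          refine (hφ.sq_pinch_le Q (mul_mem (mul_mem (hm 0) (hUM i)) (star_mem (hm 0)))).trans ?_
          rw [mul_assoc]
          exact hφ.sq_mul_left (hm 0) (mul_mem (hUM i) (star_mem (hm 0)))
      _ ≤ η := by
        rw [← Finset.mul_sum]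
        have h2 : 0 ≤ ∑ i, sq φ (U i * star (m 0)) :=
          Finset.sum_nonneg fun i _ => hφ.sq_nonneg' (mul_mem (hUM i) (star_mem (hm 0)))
        nlinarith

/-- The second moment of the early part. -/
theorem sum_sq_small_free (hφ : IsCState M A φ) (a : ℕ) : ∀ (j : ℕ) (m : ℕ → H →L[ℂ] H),
    j ≤ a → (∀ x, m x ∈ M) → (∀ x, j < x → x ≤ a → Conj A (m x)) →
    Diffuse A φ (seg m j (a - j)) → ∀ (i : Fin a), i.val < j → ∀ (η : ℝ), 0 < η → ∀ᶠ Q in refF A,
      ∑ t : Fin a → Fin Q.n, sq φ (Q.p (t i) * star (word Q.p m t)) ≤ η := by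
  induction a with
  | zero => intro _ m _ _ _ _ i; exact i.elim0
  | succ a ih =>
    intro j' m hja hm hn hd i hij η hη
    obtain ⟨j, rfl⟩ : ∃ j, j' = j + 1 := ⟨j' - 1, by omega⟩
    have hd' : Diffuse A φ (seg (fun x => m (x + 1)) j (a - j)) := by
      rwa [seg_shift, show a - j = a + 1 - (j + 1) by omega]
    have hn' : ∀ x, j < x → x ≤ a → Conj A (m (x + 1)) := fun x h0 h1 =>
      hn (x + 1) (by omega) (by omega)
    obtain ⟨C, hC, hrow⟩ := row_word (A := A) a fun x => m (x + 1)
    obtain ⟨δ, hδ, hconj⟩ := hφ.conj_small (star_mem (hm 0)) hC hη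
    have key : ∀ᶠ Q in refF A, ∑ w : Fin Q.n × (Fin a → Fin Q.n),
        sq φ (Q.p (Fin.consEquiv (fun _ => Fin Q.n) w i) *
          star (word Q.p (fun x => m (x + 1)) w.2) * Q.p w.1) < δ := by
      induction i using Fin.cases with
      | zero =>
        obtain ⟨-, -, -, hco⟩ := hφ.exists_coarse_free j a (fun x => m (x + 1)) (by omega)
          (fun x => hm (x + 1)) hn' hd'
        set B := (φ 1).re + 1 with hB
        have hB0 : 0 < B := by
          have := hφ.sq_nonneg' (one_mem M)
          simp [sq] at this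
          positivity
        set lam := δ / (2 * B) with hlam
        have hl : 0 < lam := by positivity
        obtain ⟨P, hP⟩ := hco (lam * δ / 2) (by positivity)
        filter_upwards [hP, eventually_refines P] with Q hQ hQP
        have hp : ∀ j, Q.p j ∈ M := fun j => hφ.masa.le _ (Q.isPart.mem j)
        have hf : ∀ K, P.p K ∈ M := fun K => hφ.masa.le _ (P.isPart.mem K)
        set Y := fun t : Fin a → Fin Q.n => star (word Q.p (fun x => m (x + 1)) t) with hY
        have hYM : ∀ t, Y t ∈ M := fun t => star_mem (word_mem M hp _ (fun x => hm (x + 1)) t)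
        set Z := fun K => ∑ t : Fin a → Fin Q.n, word Q.p (fun x => m (x + 1)) t * P.p K *
          star (word Q.p (fun x => m (x + 1)) t) with hZ
        have hZM : ∀ K, Z K ∈ M := fun K => sum_mem fun t _ =>
          mul_mem (mul_mem (word_mem M hp _ (fun x => hm (x + 1)) t) (hf K))
            (star_mem (word_mem M hp _ (fun x => hm (x + 1)) t))
        have h1 : ∀ j t, sq φ (Q.p j * Y t * Q.p j) ≤
            ∑ K, sq φ (P.p K * Y t * P.p K * Q.p j) := by
          intro j t
          have h0 : ∀ K, 0 ≤ sq φ (P.p K * Y t * P.p K * Q.p j) := fun K =>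
            hφ.sq_nonneg' (mul_mem (mul_mem (mul_mem (hf K) (hYM t)) (hf K)) (hp j))
          by_cases hj : Q.p j = 0
          · refine le_trans ?_ (Finset.sum_nonneg fun K _ => h0 K)
            simp [hj, sq]
          · obtain ⟨K, hK⟩ := Part.exists_parent hQP j hj
            have hK' : P.p K * Q.p j = Q.p j := by
              rw [← (hφ.masa.comm _ (Q.isPart.mem j) _ (P.isPart.mem K)).eq, hK]
            refine le_trans ?_ (Finset.single_le_sum (fun K _ => h0 K) (Finset.mem_univ K))
            have e : Q.p j * Y t * Q.p j = Q.p j * (P.p K * Y t * P.p K * Q.p j) := by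
              conv_rhs => rw [show Q.p j * (P.p K * Y t * P.p K * Q.p j) =
                (Q.p j * P.p K) * Y t * (P.p K * Q.p j) by simp only [mul_assoc], hK, hK']
            rw [e]
            refine (hφ.sq_mul_left (hp j)
              (mul_mem (mul_mem (mul_mem (hf K) (hYM t)) (hf K)) (hp j))).trans
              (mul_le_of_le_one_left (h0 K) ?_)
            exact pow_le_one₀ (norm_nonneg _) (opNorm_proj_le_one (Q.isPart.proj j))
        have h2 : ∀ K, ∑ t, sq φ (P.p K * Y t * P.p K) =
            (φ (star (P.p K) * pinch Q.p (Z K))).re := by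
          intro K
          have hc : ∀ j, Commute (Q.p j) (P.p K) :=
            fun j => hφ.masa.comm _ (Q.isPart.mem j) _ (P.isPart.mem K)
          rw [(P.isPart.proj K).isSelfAdjoint.star_eq, ← pinch_mul_left hc,
            hφ.map_pinch Q (mul_mem (hf K) (hZM K)), hZ, Finset.mul_sum, map_sum, Complex.re_sum]
          refine Finset.sum_congr rfl fun t _ => ?_
          have hi := (P.isPart.proj K).isIdempotentElem.eq
          have hs := (P.isPart.proj K).isSelfAdjoint.star_eq
          have e : star (P.p K * Y t * P.p K) * (P.p K * Y t * P.p K) =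
              P.p K * (star (Y t) * P.p K * Y t * P.p K) := by
            simp only [star_mul, hs, mul_assoc]
            rw [← mul_assoc (P.p K) (P.p K) (Y t * P.p K), hi]
          rw [sq, e, hφ.central _ (P.isPart.mem K) _ (mul_mem (mul_mem (mul_mem
            (star_mem (hYM t)) (hf K)) (hYM t)) (hf K)),
            mul_assoc (star (Y t) * P.p K * Y t), hi,
            ← hφ.central _ (P.isPart.mem K) _ (mul_mem (mul_mem (star_mem (hYM t)) (hf K)) (hYM t))]
          simp [hY]
        have h3 : ∀ K, (φ (star (P.p K) * pinch Q.p (Z K))).re ≤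
            (lam * sq φ (P.p K) + sq φ (pinch Q.p (Z K)) / lam) / 2 := fun K => by
          linarith [hφ.two_re_le (hf K) (hφ.pinch_memM Q (hZM K)) hl]
        have h4 : ∑ K, sq φ (P.p K) ≤ B := by
          have := hφ.sum_sq_mul_part P (one_mem M)
          simp only [one_mul] at this
          rw [this, sq, star_one, one_mul]
          linarith
        rw [Fintype.sum_prod_type]
        calc ∑ j, ∑ t, sq φ (Q.p (Fin.consEquiv (fun _ => Fin Q.n) (j, t) 0) * Y t * Q.p j)
            = ∑ j, ∑ t, sq φ (Q.p j * Y t * Q.p j) := by simp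
          _ ≤ ∑ j, ∑ t, ∑ K, sq φ (P.p K * Y t * P.p K * Q.p j) :=
              Finset.sum_le_sum fun j _ => Finset.sum_le_sum fun t _ => h1 j t
          _ = ∑ K, ∑ t, sq φ (P.p K * Y t * P.p K) := by
              rw [Finset.sum_comm, Finset.sum_congr rfl fun t _ => Finset.sum_comm, Finset.sum_comm]
              exact Finset.sum_congr rfl fun K _ => Finset.sum_congr rfl fun t _ =>
                hφ.sum_sq_mul_part Q (mul_mem (mul_mem (hf K) (hYM t)) (hf K))
          _ ≤ ∑ K, (lam * sq φ (P.p K) + sq φ (pinch Q.p (Z K)) / lam) / 2 :=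
              Finset.sum_le_sum fun K _ => (h2 K).trans_le (h3 K)
          _ < δ := by
              rw [← Finset.sum_div, Finset.sum_add_distrib, ← Finset.mul_sum, ← Finset.sum_div]
              have e1 : (∑ K, sq φ (pinch Q.p (Z K))) / lam ≤ δ / 2 := by
                rw [div_le_iff₀ hl]; linarith
              have e2 : lam * (2 * B) = δ := by rw [hlam]; field_simp
              nlinarith [mul_le_mul_of_nonneg_left h4 hl.le]
      | succ i =>
        filter_upwards [ih j (fun x => m (x + 1)) (by omega) (fun x => hm (x + 1)) hn' hd' i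
          (by simp at hij; omega) (δ / 2) (half_pos hδ)]
          with Q hQ
        rw [Fintype.sum_prod_type, Finset.sum_comm]
        refine lt_of_le_of_lt (le_of_eq_of_le ?_ hQ) (half_lt_self hδ)
        refine Finset.sum_congr rfl fun t _ => ?_
        simpa using hφ.sum_sq_mul_part Q (X := Q.p (t i) * star (word Q.p (fun x => m (x + 1)) t))
          (mul_mem (hφ.masa.le _ (Q.isPart.mem _)) (star_mem (word_mem M
            (fun j => hφ.masa.le _ (Q.isPart.mem j)) _ (fun x => hm (x + 1)) t)))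
    filter_upwards [key] with Q hQ
    have hp : ∀ j, Q.p j ∈ M := fun j => hφ.masa.le _ (Q.isPart.mem j)
    refine le_of_eq_of_le ?_ (hconj _ (fun w : Fin Q.n × (Fin a → Fin Q.n) =>
      Q.p (Fin.consEquiv (fun _ => Fin Q.n) w i) * star (word Q.p (fun x => m (x + 1)) w.2) *
        Q.p w.1) (fun w => mul_mem (mul_mem (hp _)
          (star_mem (word_mem M hp _ (fun x => hm (x + 1)) _))) (hp _)) (fun v => ?_) hQ)
    · rw [← (Fin.consEquiv fun _ => Fin Q.n).sum_comp]
      refine Finset.sum_congr rfl fun w _ => ?_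
      simp [word_succ, Fin.consEquiv, mul_assoc, (Q.isPart.proj w.1).isSelfAdjoint.star_eq]
    · rw [Fintype.sum_prod_type]
      calc ∑ j, ∑ t : Fin a → Fin Q.n, ‖(Q.p (Fin.consEquiv (fun _ => Fin Q.n) (j, t) i) *
              star (word Q.p (fun x => m (x + 1)) t) * Q.p j) v‖ ^ 2
          ≤ ∑ j, ∑ t : Fin a → Fin Q.n,
              ‖star (word Q.p (fun x => m (x + 1)) t) (Q.p j v)‖ ^ 2 :=
            Finset.sum_le_sum fun j _ => Finset.sum_le_sum fun t _ => pow_le_pow_left₀
              (norm_nonneg _) (norm_proj_le (Q.isPart.proj _) _) 2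
        _ ≤ ∑ j, C * ‖Q.p j v‖ ^ 2 := Finset.sum_le_sum fun j _ => hrow Q _
        _ ≤ C * ‖v‖ ^ 2 := by
            rw [← Finset.mul_sum]
            exact mul_le_mul_of_nonneg_left (Q.isPart.sum_norm_sq_le v) hC

end IsCState

end Vale.Agent.P078.General.Single
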