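import Vale.Agent.P078.Free.Coarse
import Vale.Agent.P078.Single.Pattern

/-!
# Words of random cell functions with conjugating and diffuse gaps

The mean over seeds of a word in centred functions of the seeds of single cells tends to zero if
coincidences without a diffuse gap in between annihilate the word.
-/

namespace Vale.Agent.P078.General.Single

open scoped InnerProductSpace Topology ComplexOrder
open Filter

universe u

variable {H : Type u} [NormedAddCommGroup H] [InnerProductSpace ℂ H] [CompleteSpace H]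
variable {M A : VonNeumannAlgebra H} {φ : (H →L[ℂ] H) →ₗ[ℂ] ℂ}

/-- A function of the seeds of the cells. -/
noncomputable def cellOp {β : Type*} (Q : Part A (1 : H →L[ℂ] H)) (c : Fin Q.n → β) (g : β → ℝ) :
    H →L[ℂ] H :=
  ∑ j, (g (c j) : ℂ) • Q.p j

namespace IsCState

theorem pattern_small_free (hφ : IsCState M A φ) {a b : ℕ} (π : Fin (a + (b + 1)) → Fin (a + (b + 1)))
    (hinj : Function.Injective (π ∘ Fin.castAdd (b + 1)))
    (hmeet : ∀ x : Fin a, ∃ y, bl π y = π (Fin.castAdd (b + 1) x)) (i : Fin a)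
    (hi : π (Fin.castAdd (b + 1) i) = π (Fin.natAdd a 0)) {m : ℕ → H →L[ℂ] H}
    (hm : ∀ x, m x ∈ M) {j : ℕ} (hij : i.val < j) (hja : j ≤ a)
    (hn : ∀ x, j < x → x ≤ a → Conj A (m x)) (hd : Diffuse A φ (seg m j (a - j))) {η : ℝ}
    (hη : 0 < η) :
    ∀ᶠ Q in refF A, ∀ [DecidablePred fun k : Fin (a + (b + 1)) → Fin Q.n => KP π k],
      ‖∑ k : Fin (a + (b + 1)) → Fin Q.n, if KP π k then φ (word Q.p m k) else 0‖ ≤ η := by
  set Kc : ℝ := (((a + (b + 1) : ℕ) : ℝ)⁻¹) ^ (Finset.univ.image π).card with hKc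
  have hK0 : 0 < Kc := by positivity
  set m' : ℕ → H →L[ℂ] H := fun x => if x = 0 then 1 else m (a + x) with hm'
  have hm'M : ∀ x, m' x ∈ M := fun x => by
    simp only [hm']
    split_ifs
    exacts [one_mem M, hm _]
  set B := (∏ x ∈ Finset.range (b + 1 + 1), ‖m' x‖) ^ 2 * (φ 1).re + 1 with hB
  have hφ1 : 0 ≤ (φ 1).re := by
    have := hφ.sq_nonneg' (one_mem M)
    simpa [sq] using this
  have hB0 : 0 < B := by positivity
  set lam := η * Kc / B with hlam
  have hl : 0 < lam := by positivity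
  filter_upwards [hφ.sum_sq_small_free a j m hja hm hn hd i hij (lam * (η * Kc)) (by positivity)] with Q hQ
  intro _
  have hp : ∀ j, Q.p j ∈ M := fun j => hφ.masa.le _ (Q.isPart.mem j)
  let Ω := (Fin Q.n → Fin (a + (b + 1))) × (Fin (a + (b + 1)) → Fin Q.n → Bool) ×
    (Fin (b + 1) → Fin Q.n → Bool)
  haveI : Nonempty (Fin (a + (b + 1))) := ⟨⟨0, by omega⟩⟩
  set X := fun t : Fin a → Fin Q.n => word Q.p m t * Q.p (t i) with hX
  set Y := fun s : Fin (b + 1) → Fin Q.n => word Q.p m' s with hY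
  set cl := fun (w : Ω) (t : Fin a → Fin Q.n) => (lc π w.1 w.2.1 t : ℂ) with hcl
  set cu := fun (w : Ω) (s : Fin (b + 1) → Fin Q.n) =>
    ∏ y, (uc π w.1 w.2.1 w.2.2 y (s y) : ℂ) with hcu
  have hXM : ∀ t, X t ∈ M := fun t => mul_mem (word_mem M hp m hm t) (hp _)
  have hsplit : ∀ k : Fin (a + (b + 1)) → Fin Q.n, KP π k → φ (word Q.p m k) =
      φ (X (fun x => k (Fin.castAdd (b + 1) x)) * Y (fun y => k (Fin.natAdd a y))) := by
    intro k hk
    have e1 : k (Fin.castAdd (b + 1) i) = k (Fin.natAdd a 0) := (hk _ _).1 hi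
    congr 1
    rw [word_split, hX, hY]
    simp only
    rw [word_succ Q.p m']
    simp only [e1, hm', if_pos, one_mul, Nat.succ_ne_zero, if_false]
    simp only [mul_assoc]
    rw [← mul_assoc (Q.p (k (Fin.natAdd a 0))) (Q.p (k (Fin.natAdd a 0))),
      (Q.isPart.proj _).isIdempotentElem.eq]
    rfl
  have havg : (Kc : ℂ) * ∑ k : Fin (a + (b + 1)) → Fin Q.n,
      (if KP π k then φ (word Q.p m k) else 0) =
      avC fun w : Ω => φ ((∑ t, cl w t • X t) * ∑ s, cu w s • Y s) := by
    simp only [Finset.sum_mul (Finset.univ : Finset (Fin a → Fin Q.n))]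
    simp only [Finset.mul_sum, map_sum, smul_mul_smul_comm, map_smul, smul_eq_mul]
    rw [avC_sum, ← (Fin.appendEquiv a (b + 1)).sum_comp, Fintype.sum_prod_type]
    refine Finset.sum_congr rfl fun t _ => ?_
    rw [avC_sum]
    refine Finset.sum_congr rfl fun s _ => ?_
    rw [avC_mul]
    set k := Fin.appendEquiv a (b + 1) (t, s) with hkdef
    have ht : (fun x => k (Fin.castAdd (b + 1) x)) = t := funext fun x => by simp [hkdef]
    have hs : (fun y => k (Fin.natAdd a y)) = s := funext fun y => by simp [hkdef]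
    have e : avC (fun w : Ω => cl w t * cu w s) = ((if KP π k then Kc else 0 : ℝ) : ℂ) := by
      have e0 : ∀ w : Ω, cl w t * cu w s = ((lc π w.1 w.2.1 (fun x => k (Fin.castAdd (b + 1) x)) *
          ∏ y, uc π w.1 w.2.1 w.2.2 y (k (Fin.natAdd a y)) : ℝ) : ℂ) := fun w => by
        simp [hcl, hcu, hkdef]
      simp only [e0]
      rw [avC_ofReal, av_prod_type]
      simp only [av_prod_type (α := Fin (a + (b + 1)) → Fin Q.n → Bool)]
      rw [hKc]
      exact congrArg _ (av_lc_uc (by omega) π hinj hmeet k)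
    rw [e]
    split_ifs with hk
    · rw [hsplit k hk, ht, hs]
    · simp
  have hR : ∀ w : Ω, ‖∑ s, cu w s • Y s‖ ^ 2 * (φ 1).re ≤ B ∧ (∑ s, cu w s • Y s) ∈ M := by
    intro w
    let c : ℕ → Fin Q.n → ℂ := fun x j =>
      if h : x < b + 1 then (uc π w.1 w.2.1 w.2.2 ⟨x, h⟩ j : ℂ) else 0
    have e : (∑ s, cu w s • Y s) = pw (b + 1) (fun x => ∑ j, c x j • Q.p j) m' := by
      rw [← sum_word]
      refine Finset.sum_congr rfl fun s _ => ?_
      congr 1
      refine Finset.prod_congr rfl fun y _ => ?_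
      simp only [c, dif_pos y.2, Fin.eta]
    refine ⟨?_, e ▸ pw_mem M _ _ _ (fun x => sum_mem fun j _ => smul_mem' M (hp j) _) hm'M⟩
    rw [e, hB]
    have hn := norm_pw_le (b + 1) (fun x => ∑ j, c x j • Q.p j) m' fun x =>
      norm_sum_coef_le Q.isPart fun j => by
        simp only [c]
        split_ifs
        · rw [Complex.norm_real]; exact abs_uc_le _ _ _ _ _ _
        · simp
    nlinarith [mul_le_mul_of_nonneg_right (pow_le_pow_left₀ (norm_nonneg _) hn 2) hφ1]
  have hbound : ∀ w : Ω, ‖φ ((∑ t, cl w t • X t) * ∑ s, cu w s • Y s)‖ ≤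
      (sq φ (star (∑ t, cl w t • X t)) / lam + lam * B) / 2 := by
    intro w
    have hLM : (∑ t, cl w t • X t) ∈ M := sum_mem fun t _ => smul_mem' M (hXM t) _
    have h := hφ.norm_le_sqrt (star_mem hLM) (hR w).2
    rw [star_star] at h
    have h2 : sq φ (∑ s, cu w s • Y s) ≤ B := (hφ.map_sq_le (hR w).2).trans (hR w).1
    refine h.trans ?_
    have hu0 := hφ.sq_nonneg' (star_mem hLM)
    have hv0 := hφ.sq_nonneg' (hR w).2
    have h3 := Real.sq_sqrt hu0
    have h4 := Real.sq_sqrt hv0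
    set U := √(sq φ (star (∑ t, cl w t • X t)))
    set V := √(sq φ (∑ s, cu w s • Y s))
    rw [le_div_iff₀ two_pos, ← h3, div_add' _ _ _ hl.ne', le_div_iff₀ hl]
    nlinarith [sq_nonneg (U - lam * V), mul_le_mul_of_nonneg_left h2 (sq_nonneg lam)]
  have hL : av (fun w : Ω => sq φ (star (∑ t, cl w t • X t))) ≤
      ∑ t, sq φ (star (X t)) := by
    have e : ∀ w : Ω, sq φ (star (∑ t, cl w t • X t)) = ∑ t, ∑ t',
        lc π w.1 w.2.1 t * lc π w.1 w.2.1 t' * (φ (X t * star (X t'))).re := fun w => by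
      simp [sq, star_sum, star_smul, hcl, Finset.sum_mul, Finset.mul_sum, map_sum, Complex.re_sum,
        ← Complex.ofReal_mul]
      rw [Finset.sum_comm]
      exact Finset.sum_congr rfl fun _ _ => Finset.sum_congr rfl fun _ _ => by ring
    simp only [e, av_mul_sum, av_mul_const]
    refine Finset.sum_le_sum fun t _ => ?_
    have e2 : ∀ t' : Fin a → Fin Q.n, ∃ c : ℝ, 0 ≤ c ∧ c ≤ 1 ∧
        av (fun w : Ω => lc π w.1 w.2.1 t * lc π w.1 w.2.1 t') = if t = t' then c else 0 := by
      intro t'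
      obtain ⟨c, h0, h1, h⟩ := av_lc_lc π hinj t t'
      refine ⟨c, h0, h1, ?_⟩
      rw [av_prod_type]
      simp only [av_prod_type (α := Fin (a + (b + 1)) → Fin Q.n → Bool), av_const]
      exact h
    obtain ⟨c, h0, h1, hc⟩ := e2 t
    rw [Finset.sum_eq_single t (fun t' _ hne => by
      obtain ⟨c', -, -, hc'⟩ := e2 t'
      rw [hc', if_neg hne.symm, zero_mul]) (fun h => absurd (Finset.mem_univ t) h), hc, if_pos rfl]
    refine le_of_le_of_eq (mul_le_of_le_one_left ?_ h1) ?_
    · have := hφ.sq_nonneg' (star_mem (hXM t))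
      simpa [sq] using this
    · simp [sq]
  have hXeq : ∑ t, sq φ (star (X t)) ≤ lam * (η * Kc) := by
    refine le_of_eq_of_le (Finset.sum_congr rfl fun t _ => ?_) hQ
    rw [hX, star_mul, (Q.isPart.proj _).isSelfAdjoint.star_eq]
  have h := (norm_avC_le _).trans (av_mono hbound)
  rw [← havg, norm_mul, Complex.norm_real, Real.norm_of_nonneg hK0.le] at h
  have hav : av (fun w : Ω => (sq φ (star (∑ t, cl w t • X t)) / lam + lam * B) / 2) =
      (av (fun w : Ω => sq φ (star (∑ t, cl w t • X t))) / lam + lam * B) / 2 := by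
    simp only [av, ← Finset.sum_div, Finset.sum_add_distrib, Finset.sum_const, Finset.card_univ,
      nsmul_eq_mul]
    have : (Fintype.card Ω : ℝ) ≠ 0 := Nat.cast_ne_zero.2 Fintype.card_ne_zero
    field_simp
  rw [hav] at h
  have e1 : lam * B = η * Kc := by rw [hlam]; field_simp
  have e2 : av (fun w : Ω => sq φ (star (∑ t, cl w t • X t))) / lam ≤ η * Kc := by
    rw [div_le_iff₀ hl]; linarith [hL.trans hXeq]
  refine le_of_mul_le_mul_left ?_ hK0
  linarith

end IsCState

/-- The mean of a product of functions of seeds. -/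
noncomputable def cellMean {β : Type*} [Fintype β] {l : ℕ} (g : Fin l → β → ℝ) {α : Type*}
    [Fintype α] [DecidableEq α] (k : Fin l → α) : ℝ :=
  av fun c : α → β => ∏ x, g x (c (k x))

theorem cellMean_canon {β : Type*} [Fintype β] [Nonempty β] {l : ℕ} (g : Fin l → β → ℝ)
    {α : Type*} [Fintype α] [DecidableEq α] (k : Fin l → α) :
    cellMean g k = cellMean g (canon k) := by
  let κ : Fin l → {y // y ∈ Finset.univ.image (canon k)} :=
    fun x => ⟨canon k x, Finset.mem_image.2 ⟨x, Finset.mem_univ x, rfl⟩⟩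
  have hk : ∀ (y : {y // y ∈ Finset.univ.image (canon k)}), canon k y.1 = y.1 := fun y => by
    obtain ⟨x, -, hx⟩ := Finset.mem_image.1 y.2
    rw [← hx, canon_congr k (canon_spec k x).1]
  have hj : Function.Injective fun y : {y // y ∈ Finset.univ.image (canon k)} => k y.1 :=
    fun y y' h => Subtype.ext (by rw [← hk y, ← hk y', canon_congr k h])
  have h1 := av_comp_injective (γ := β) hj fun d => ∏ x, g x (d (κ x))
  have h2 := av_comp_injective (γ := β)
    (Subtype.val_injective (p := fun y => y ∈ Finset.univ.image (canon k)))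
    fun d => ∏ x, g x (d (κ x))
  simp only [Function.comp_apply, κ, (canon_spec k _).1] at h1 h2
  exact h1.trans h2.symm

theorem cellMean_single {β : Type*} [Fintype β] [Nonempty β] {l : ℕ} {g : Fin l → β → ℝ}
    (hg : ∀ x, av (g x) = 0) (π : Fin l → Fin l) {x : Fin l} (h : ∀ y, π y = π x → y = x) :
    cellMean g π = 0 := by
  classical
  have e : ∀ d : Fin l → β, (∏ y, g y (d (π y))) =
      ∏ b, ∏ y ∈ Finset.univ.filter (fun y => π y = b), g y (d b) := fun d => by
    rw [← Finset.prod_fiberwise Finset.univ π]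
    exact Finset.prod_congr rfl fun b _ => Finset.prod_congr rfl fun y hy => by
      rw [(Finset.mem_filter.1 hy).2]
  rw [cellMean]
  simp only [e]
  refine (av_prod fun (b : Fin l) (i : β) =>
    ∏ y ∈ Finset.univ.filter (fun y => π y = b), g y i).trans ?_
  refine Finset.prod_eq_zero (Finset.mem_univ (π x)) ?_
  have e1 : Finset.univ.filter (fun y => π y = π x) = {x} := by
    ext y
    simpa using ⟨h y, fun e => by rw [e]⟩
  simp only [e1, Finset.prod_singleton]
  exact hg x

theorem IsCState.word_small_free (hφ : IsCState M A φ) {β : Type*} [Fintype β] [Nonempty β]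
    {l : ℕ} (hl : 0 < l) {g : ℕ → β → ℝ} (hg : ∀ x, x < l → av (g x) = 0)
    {m : ℕ → H →L[ℂ] H} (hm : ∀ x, m x ∈ M) {bd : ℕ → Prop}
    (hconj : ∀ x, 0 < x → x < l → ¬bd x → Conj A (m x))
    (hdiff : ∀ j a, 0 < j → j ≤ a → a < l → bd j → (∀ x, j < x → x ≤ a → ¬bd x) →
      Diffuse A φ (seg m j (a - j)))
    (hcoll : ∀ x y : Fin l, x < y → (∀ z, x.val < z → z ≤ y.val → ¬bd z) →
      ∀ᶠ Q in refF A, ∀ k : Fin l → Fin Q.n, k x = k y → word Q.p m k = 0)
    {η : ℝ} (hη : 0 < η) :
    ∀ᶠ Q in refF A, ‖avC fun c : Fin Q.n → β => φ (pw l (fun x => cellOp Q c (g x)) m)‖ ≤ η := by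
  classical
  set η' := η / ((Fintype.card (Fin l → Fin l) : ℝ) + 1) with hη'
  have hη'0 : 0 < η' := by positivity
  have hpat : ∀ π : Fin l → Fin l, ∀ᶠ Q in refF A, canon π = π →
      ‖(cellMean (fun x : Fin l => g x) π : ℂ) * ∑ k : Fin l → Fin Q.n, if KP π k then φ (word Q.p m k) else 0‖
        ≤ η' := by
    intro π
    by_cases hπ : canon π = π
    swap
    · exact Eventually.of_forall fun Q h => absurd h hπ
    by_cases hs : ∃ x, ∀ y, π y = π x → y = x
    · obtain ⟨x, hx⟩ := hs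
      exact Eventually.of_forall fun Q _ => by
        simp [cellMean_single (g := fun x : Fin l => g x) (fun x => hg x x.2) π hx, hη'0.le]
    push Not at hs
    have hne : ∃ n, ∃ h : n < l, π ⟨n, h⟩ ≠ ⟨n, h⟩ := by
      obtain ⟨y, hy, hy'⟩ := hs ⟨0, hl⟩
      by_contra hcon
      push Not at hcon
      exact hy' ((hcon y.1 y.2).symm.trans (hy.trans (hcon 0 hl)))
    obtain ⟨a, ⟨hal, hπa⟩, hbef⟩ : ∃ a, (∃ h : a < l, π ⟨a, h⟩ ≠ ⟨a, h⟩) ∧
        ∀ n (h : n < l), n < a → π ⟨n, h⟩ = ⟨n, h⟩ :=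
      ⟨Nat.find hne, Nat.find_spec hne, fun n h hn => by
        by_contra hne'
        exact Nat.find_min hne hn ⟨h, hne'⟩⟩
    have hle : π ⟨a, hal⟩ < ⟨a, hal⟩ :=
      lt_of_le_of_ne (le_of_eq_of_le (congrFun hπ _).symm (canon_spec π _).2) hπa
    obtain ⟨b, rfl⟩ : ∃ b, l = a + (b + 1) := ⟨l - a - 1, by omega⟩
    have hfix : ∀ x : Fin a, π (Fin.castAdd (b + 1) x) = Fin.castAdd (b + 1) x :=
      fun x => hbef x.1 _ x.2
    have hinj : Function.Injective (π ∘ Fin.castAdd (b + 1)) := fun x x' h => by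
      simp only [Function.comp_apply, hfix] at h
      exact Fin.castAdd_injective _ _ h
    have hmeet : ∀ x : Fin a, ∃ y, bl π y = π (Fin.castAdd (b + 1) x) := by
      intro x
      obtain ⟨y, hy, hy'⟩ := hs (Fin.castAdd (b + 1) x)
      revert hy hy'
      refine Fin.addCases (fun x' => ?_) (fun y' => ?_) y
      · intro hy hy'
        exact absurd (congrArg (Fin.castAdd (b + 1)) (hinj hy)) hy'
      · exact fun hy _ => ⟨y', hy⟩
    have hia : (π ⟨a, hal⟩).val < a := hle
    have hi : π (Fin.castAdd (b + 1) (⟨(π ⟨a, hal⟩).val, hia⟩ : Fin a)) =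
        π (Fin.natAdd a 0) := by
      rw [hfix]
      exact Fin.ext (by simp; rfl)
    set i₀ : Fin (a + (b + 1)) := π ⟨a, hal⟩ with hi₀
    by_cases hbd : ∃ z, i₀.val < z ∧ z ≤ a ∧ bd z
    · obtain ⟨j, ⟨hij, hja, hj⟩, hlast⟩ : ∃ j, (i₀.val < j ∧ j ≤ a ∧ bd j) ∧
          ∀ x, j < x → x ≤ a → ¬bd x := by
        obtain ⟨z, hz1, hz2, hz3⟩ := hbd
        have hp : ∃ j, j ≤ a ∧ (i₀.val < j ∧ bd j) := ⟨z, hz2, hz1, hz3⟩
        refine ⟨Nat.findGreatest (fun j => i₀.val < j ∧ bd j) a, ?_, fun x h1 h2 h3 => ?_⟩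
        · have := Nat.findGreatest_spec (P := fun j => i₀.val < j ∧ bd j) hz2 ⟨hz1, hz3⟩
          exact ⟨this.1, Nat.findGreatest_le a, this.2⟩
        · have := Nat.findGreatest_spec (P := fun j => i₀.val < j ∧ bd j) hz2 ⟨hz1, hz3⟩
          exact absurd h1 (not_lt.2 (Nat.le_findGreatest h2 ⟨lt_trans this.1 h1, h3⟩))
      refine (hφ.pattern_small_free π hinj hmeet _ hi hm hij hja
        (fun x h0 h1 => hconj x (by omega) (by omega) (hlast x h0 h1))
        (hdiff j a (by omega) hja (by omega) hj hlast)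
        (div_pos hη'0 (by positivity :
          (0 : ℝ) < |cellMean (fun x : Fin (a + (b + 1)) => g x) π| + 1))).mono fun Q hQ _ => ?_
      have h1 := hQ
      rw [le_div_iff₀ (by positivity)] at h1
      rw [norm_mul, Complex.norm_real, Real.norm_eq_abs]
      nlinarith [norm_nonneg (∑ k : Fin (a + (b + 1)) → Fin Q.n,
        if KP π k then φ (word Q.p m k) else 0)]
    · push Not at hbd
      refine (hcoll i₀ ⟨a, hal⟩ hle fun z h1 h2 h3 => hbd z h1 h2 h3).mono fun Q hQ _ => ?_
      rw [Finset.sum_eq_zero fun k _ => ?_]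
      · simp [hη'0.le]
      · split_ifs with hk
        · have e : k i₀ = k ⟨a, hal⟩ := (hk _ _).1 (by
            rw [hi₀]
            have := (canon_spec π ⟨a, hal⟩).1
            rwa [hπ] at this)
          rw [hQ k e, map_zero]
        · rfl
  filter_upwards [eventually_all.2 hpat] with Q hQ
  have e : (avC fun c : Fin Q.n → β => φ (pw l (fun x => cellOp Q c (g x)) m)) =
      ∑ π ∈ Finset.univ.filter (fun π : Fin l → Fin l => canon π = π),
        (cellMean (fun x : Fin l => g x) π : ℂ) * ∑ k : Fin l → Fin Q.n,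
          if KP π k then φ (word Q.p m k) else 0 := by
    simp only [cellOp, ← sum_word Q.p l (fun x j => (g x (_ : β) : ℂ)), map_sum, map_smul,
      smul_eq_mul]
    rw [avC_sum]
    simp only [avC_mul, ← Complex.ofReal_prod, avC_ofReal]
    rw [← Finset.sum_fiberwise_of_maps_to (g := canon)
      (t := Finset.univ.filter fun π : Fin l → Fin l => canon π = π)
      (fun k _ => Finset.mem_filter.2 ⟨Finset.mem_univ (canon k), canon_canon k⟩)]
    refine Finset.sum_congr rfl fun π hπ => ?_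
    rw [Finset.mul_sum, Finset.sum_filter]
    refine Finset.sum_congr rfl fun k _ => ?_
    have hiff : canon k = π ↔ KP π k :=
      ⟨fun h => h ▸ kp_canon k, canon_eq_of_kp (Finset.mem_filter.1 hπ).2⟩
    by_cases hk : KP π k
    · rw [if_pos hk, if_pos (hiff.2 hk), ← hiff.2 hk, ← cellMean_canon (fun x : Fin l => g x) k]
      rfl
    · rw [if_neg hk, if_neg (hiff.not.2 hk), mul_zero]
  rw [e]
  refine (norm_sum_le _ _).trans ((Finset.sum_le_sum fun π hπ =>
    hQ π (Finset.mem_filter.1 hπ).2).trans ?_)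
  rw [Finset.sum_const, nsmul_eq_mul, hη', mul_div_assoc', div_le_iff₀ (by positivity)]
  have : ((Finset.univ.filter (fun π : Fin l → Fin l => canon π = π)).card : ℝ) ≤
      Fintype.card (Fin l → Fin l) := by exact_mod_cast Finset.card_le_univ _
  nlinarith

end Vale.Agent.P078.General.Single
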