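import Vale.Agent.P078.Free.Bound

/-!
# The pinching by all colours

Moments of the pinched gap, and the projection on which the pinching is small.
-/

namespace Vale.Agent.P078.General.Single

open scoped InnerProductSpace Topology ComplexOrder
open Filter

universe u

variable {H : Type u} [NormedAddCommGroup H] [InnerProductSpace ℂ H] [CompleteSpace H]
variable {M A : VonNeumannAlgebra H} {φ : (H →L[ℂ] H) →ₗ[ℂ] ℂ}

/-- The square of the pinched power splits over the colours. -/
theorem sq_pinch_pow (hφ : IsCState M A φ) {r : ℕ} {p : Fin r → H →L[ℂ] H} (hp : IsPart A 1 p)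
    {y : H →L[ℂ] H} (hys : IsSelfAdjoint y) (n : ℕ) :
    sq φ (pinch p y ^ (n + 1)) = ∑ i, sq φ ((p i * y * p i) ^ (n + 1) * p i) := by
  set X := fun i => p i * y * p i with hX
  have hXX : ∀ i j, i ≠ j → X i * X j = 0 := fun i j h => by
    calc X i * X j = p i * y * (p i * p j) * y * p j := by simp only [hX, mul_assoc]
      _ = 0 := by rw [hp.orth i j h]; simp
  have hpow : ∀ k, (∑ i, X i) ^ (k + 1) = ∑ i, X i ^ (k + 1) := fun k => by
    induction k with
    | zero => simp
    | succ k ih =>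
      rw [pow_succ, ih, Finset.sum_mul]
      refine Finset.sum_congr rfl fun i _ => ?_
      rw [Finset.mul_sum, Finset.sum_eq_single i (fun j _ hj => by
        rw [pow_succ (X i), mul_assoc, hXX i j hj.symm, mul_zero])
        (fun h => absurd (Finset.mem_univ i) h), ← pow_succ]
  have hXs : ∀ i, star (X i) = X i := fun i => by
    simp only [hX, star_mul, (hp.proj i).isSelfAdjoint.star_eq, hys.star_eq, mul_assoc]
  have hXp : ∀ i, X i ^ (n + 1) * p i = X i ^ (n + 1) := fun i => by
    rw [pow_succ, mul_assoc, show X i * p i = X i by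
      simp only [hX, mul_assoc, (hp.proj i).isIdempotentElem.eq]]
  simp only [← hX, show ∀ i, (p i * y * p i) ^ (n + 1) * p i = X i ^ (n + 1) from hXp]
  rw [show pinch p y = ∑ i, X i from rfl, hpow]
  refine hφ.sq_sum_orth fun i j h => ?_
  rw [star_pow, hXs, pow_succ, pow_succ' (X j), mul_assoc, ← mul_assoc (X i), hXX i j h,
    zero_mul, mul_zero]

variable {Mon Gap : (H →L[ℂ] H) → Prop} {β : Type} [Fintype β] [Nonempty β]
variable {Let : SFam A β → Prop}

/-- Moments of the pinching of a selfadjoint gap by `r` random colours. -/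
theorem pinch_moment_free (hφ : IsCState M A φ) (hD : FreeData M A φ Mon Gap) {r : ℕ} (hr : 0 < r)
    {P : Fin r → SFam A β} (hP : ∀ Q c, IsPart A 1 fun i => P i Q c)
    (hC : ∀ i, ColourData M A Mon Let ((r : ℝ)⁻¹) (P i)) {y : H →L[ℂ] H} (hy : Gap y)
    (hys : IsSelfAdjoint y) (n : ℕ) {η : ℝ} (hη : 0 < η) :
    ∀ᶠ Q in refF A, (av fun c : Fin Q.n → β => sq φ (pinch (fun i => P i Q c) y ^ (n + 1))) ≤
      (400 * (r : ℝ)⁻¹ * ‖y‖ ^ 2) ^ (n + 1) * (φ 1).re + η := by
  have hr' : (0 : ℝ) < r := Nat.cast_pos.2 hr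
  filter_upwards [eventually_all.2 fun i : Fin r =>
    (pow_bound_free hφ hD (hC i) hy (n + 1)).2 (η / r) (div_pos hη hr')] with Q hQ
  simp only [sq_pinch_pow hφ (hP Q _) hys, av_mul_sum]
  refine (Finset.sum_le_sum fun i _ => hQ i).trans (le_of_eq ?_)
  rw [Finset.sum_const, Finset.card_univ, Fintype.card_fin, nsmul_eq_mul]
  field_simp

/-- An element with a small high moment is small on a large projection. -/
theorem exists_cut_small (hφ : IsCState M A φ) {S : H →L[ℂ] H} (hSM : S ∈ M)
    (hSs : IsSelfAdjoint S) (m : ℕ) {τ d : ℝ} (hτ : 0 < τ)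
    (h : sq φ (S ^ 2 ^ m) ≤ d * (τ ^ 2) ^ 2 ^ m) :
    ∃ q ∈ M, IsStarProjection q ∧ sq φ (1 - q) ≤ d ∧ ‖q * S * q‖ ≤ τ := by
  set N := 2 ^ m with hN
  set T := star (S ^ N) * S ^ N with hT
  have hTM : T ∈ M := mul_mem (star_mem (pow_mem hSM N)) (pow_mem hSM N)
  have hTs : IsSelfAdjoint T := IsSelfAdjoint.star_mul_self _
  have hT0 : 0 ≤ T := star_mul_self_nonneg _
  set q := cut T ((τ ^ 2) ^ N) with hqdef
  have hq := isStarProjection_cut T ((τ ^ 2) ^ N)
  have hqM : q ∈ M := cut_mem M hTM hTs _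
  refine ⟨q, hqM, hq, ?_, ?_⟩
  · have hq1 : IsStarProjection (1 - q) := hq.one_sub
    have hle : 0 ≤ T - (((τ ^ 2) ^ N : ℝ) : ℂ) • (1 - q) := by
      refine nonneg_of_re_inner (hTs.sub (by
        simp only [IsSelfAdjoint, star_smul, hq1.isSelfAdjoint.star_eq, Complex.star_def,
          Complex.conj_ofReal])) fun u => ?_
      have h := norm_sub_cut_sq hTs hT0 (t := (τ ^ 2) ^ N) u
      rw [sub_apply, inner_sub_left, smul_apply, inner_smul_left, Complex.conj_ofReal,
        Complex.sub_re, Complex.re_ofReal_mul]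
      have e := star_proj_apply_norm_sq hq1 u
      simp only [sub_apply, one_apply_eq_self] at e ⊢
      rw [← e]
      rw [← hqdef] at h
      linarith
    have h1 := (Complex.le_def.1 (hφ.map_nonneg
      (sub_mem hTM (smul_mem' M (sub_mem (one_mem M) hqM) _)) hle)).1
    simp only [map_sub, map_smul, Complex.zero_re, Complex.sub_re, smul_eq_mul,
      Complex.re_ofReal_mul] at h1
    rw [sq, hq1.isSelfAdjoint.star_eq, hq1.isIdempotentElem.eq, map_sub, Complex.sub_re]
    refine le_of_mul_le_mul_left ?_ (show 0 < (τ ^ 2) ^ N by positivity)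
    have h3 : (φ T).re = sq φ (S ^ N) := rfl
    linarith
  · have hcS : Commute S T := by
      rw [hT, star_pow, hSs.star_eq]
      exact ((Commute.refl S).pow_right N).mul_right ((Commute.refl S).pow_right N)
    have hcq : Commute S q := commute_cut hTs hcS _
    have e1 : q * S * q = q * S := by
      rw [mul_assoc, hcq.eq, ← mul_assoc, hq.isIdempotentElem.eq]
    have hsa : IsSelfAdjoint (q * S * q) := by
      have := hSs.conjugate q
      rwa [hq.isSelfAdjoint.star_eq] at this
    have hpw := hsa.nnnorm_pow_two_pow (m + 1)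
    rw [← NNReal.coe_inj] at hpw
    simp only [coe_nnnorm, NNReal.coe_pow] at hpw
    have e2 : (q * S * q) ^ 2 ^ (m + 1) = q * T * q := by
      rw [e1, hcq.symm.mul_pow, hq.isIdempotentElem.pow_eq (pow_ne_zero _ two_ne_zero),
        mul_assoc q T q, (commute_cut_self hTs _).eq, ← mul_assoc, hq.isIdempotentElem.eq, hT,
        star_pow, hSs.star_eq, ← pow_add]
      congr 2
      rw [hN, pow_succ]; omega
    rw [e2] at hpw
    have h3 : ‖q * T * q‖ ≤ (τ ^ 2) ^ N := by
      refine norm_sa_le (by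
        have := hTs.conjugate q
        rwa [hq.isSelfAdjoint.star_eq] at this) (by positivity) (fun u => ?_) fun u => ?_
      · simp only [mul_apply_eq_comp]
        rw [inner_sa hq.isSelfAdjoint]
        exact re_inner_nonneg_of_nonneg hT0 _
      · simp only [mul_apply_eq_comp]
        rw [inner_sa hq.isSelfAdjoint]
        refine (re_inner_le_of_mem_cutSpace hTs (cut_mem_cutSpace T _ u)).trans ?_
        exact mul_le_mul_of_nonneg_left
          (pow_le_pow_left₀ (norm_nonneg _) (norm_proj_le hq u) 2) (by positivity)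
    rw [hpw, ← pow_mul, hN, ← pow_succ'] at h3
    exact le_of_pow_le_pow_left₀ (pow_ne_zero _ two_ne_zero) hτ.le h3

omit [CompleteSpace H] in
/-- One sample is good for two nonnegative quantities with small means. -/
theorem exists_good_sample {α : Type*} [Fintype α] [Nonempty α] {f g : α → ℝ} (hf : ∀ c, 0 ≤ f c)
    (hg : ∀ c, 0 ≤ g c) {a b : ℝ} (ha : 0 < a) (hb : 0 < b) (hfa : av f ≤ a) (hgb : av g ≤ b) :
    ∃ c, f c ≤ 2 * a ∧ g c ≤ 2 * b := by
  by_contra h
  push Not at h
  have hpt : ∀ c, (2 : ℝ) < f c * a⁻¹ + g c * b⁻¹ := fun c => by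
    rcases le_or_gt (f c) (2 * a) with hc | hc
    · have := (lt_mul_inv_iff₀ hb).2 (h c hc)
      nlinarith [mul_nonneg (hf c) (inv_nonneg.2 ha.le)]
    · have := (lt_mul_inv_iff₀ ha).2 hc
      nlinarith [mul_nonneg (hg c) (inv_nonneg.2 hb.le)]
  have h1 : (2 : ℝ) < av f * a⁻¹ + av g * b⁻¹ := by
    rw [← av_mul_const, ← av_mul_const, ← av_add]
    conv_lhs => rw [← av_const (α := α) (2 : ℝ)]
    exact div_lt_div_of_pos_right
      (Finset.sum_lt_sum_of_nonempty Finset.univ_nonempty fun c _ => hpt c)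
      (Nat.cast_pos.2 Fintype.card_pos)
  have h2 : av f * a⁻¹ ≤ 1 := (mul_inv_le_iff₀ ha).2 (by linarith)
  have h3 : av g * b⁻¹ ≤ 1 := (mul_inv_le_iff₀ hb).2 (by linarith)
  linarith

end Vale.Agent.P078.General.Single
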