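import Vale.Agent.P078.Free.Words

/-!
# The vectors reached by random compressions

`InV0`: combinations of `b` and `d L f` with a gap `d`; `InV1`: combinations of `L f`. A family is
`Near` if it is a sum of both up to small mean squares.
-/

namespace Vale.Agent.P078.General.Single

open scoped InnerProductSpace Topology ComplexOrder
open Filter

universe u

variable {H : Type u} [NormedAddCommGroup H] [InnerProductSpace ℂ H] [CompleteSpace H]
variable {M A : VonNeumannAlgebra H} {φ : (H →L[ℂ] H) →ₗ[ℂ] ℂ}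
variable {Mon Gap : (H →L[ℂ] H) → Prop} {β : Type} [Fintype β]

/-- Combinations of `b` and of `d L f`. -/
inductive InV0 (M A : VonNeumannAlgebra H) (Gap : (H →L[ℂ] H) → Prop) (Let : SFam A β → Prop) :
    SFam A β → Prop
  | base {b : H →L[ℂ] H} : b ∈ M → InV0 M A Gap Let fun _ _ => b
  | step {d : H →L[ℂ] H} {L f : SFam A β} : Gap d → Let L → InV0 M A Gap Let f →
      InV0 M A Gap Let fun Q c => d * (L Q c * f Q c)
  | add {f g : SFam A β} : InV0 M A Gap Let f → InV0 M A Gap Let g →
      InV0 M A Gap Let fun Q c => f Q c + g Q c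
  | smul {f : SFam A β} (s : ℂ) : InV0 M A Gap Let f → InV0 M A Gap Let fun Q c => s • f Q c

/-- Combinations of `L f`. -/
inductive InV1 (M A : VonNeumannAlgebra H) (Gap : (H →L[ℂ] H) → Prop) (Let : SFam A β → Prop) :
    SFam A β → Prop
  | mk {L f : SFam A β} : Let L → InV0 M A Gap Let f → InV1 M A Gap Let fun Q c => L Q c * f Q c
  | add {f g : SFam A β} : InV1 M A Gap Let f → InV1 M A Gap Let g →
      InV1 M A Gap Let fun Q c => f Q c + g Q c
  | smul {f : SFam A β} (s : ℂ) : InV1 M A Gap Let f → InV1 M A Gap Let fun Q c => s • f Q c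

theorem inV0_mono {L1 L2 : SFam A β → Prop} (h : ∀ L, L1 L → L2 L) {f : SFam A β}
    (hf : InV0 M A Gap L1 f) : InV0 M A Gap L2 f := by
  induction hf with
  | base hb => exact .base hb
  | step hd hL _ ih => exact .step hd (h _ hL) ih
  | add _ _ i1 i2 => exact i1.add i2
  | smul s _ ih => exact ih.smul s

theorem avC_add' {α : Type*} [Fintype α] (f g : α → ℂ) :
    avC (fun x => f x + g x) = avC f + avC g := by
  simp [avC, Finset.sum_add_distrib, add_div]

theorem avC_smul {α : Type*} [Fintype α] (s : ℂ) (f : α → ℂ) :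
    avC (fun x => s * f x) = s * avC f := by
  simp [avC, ← Finset.mul_sum, mul_div_assoc]

/-- A chain prefix followed by an element of `InV0` has small means. -/
theorem tail_small [Nonempty β] (hφ : IsCState M A φ) (hD : FreeData M A φ Mon Gap) {g : SFam A β}
    (hg : InV0 M A Gap (InLet A Mon) g) : ∀ F : SFam A β, IsPre M A φ Mon F →
      Tendsto (fun Q => avC fun c => φ (F Q c * g Q c)) (refF A) (𝓝 0) := by
  induction hg with
  | base hb => exact fun F hF => isPre_small hφ hD hF hb
  | @step d L f hd hL _ ih =>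
    intro F hF
    induction hL with
    | word hW =>
      refine (ih _ (isPre_step hD hF hd hW)).congr fun Q => ?_
      simp only [mul_assoc]
    | add _ _ i1 i2 =>
      refine Tendsto.congr (fun Q => ?_) (by simpa using i1.add i2)
      simp [mul_add, add_mul, avC_add']
    | @smul L s _ i =>
      have := i.const_mul s
      rw [mul_zero] at this
      refine this.congr fun Q => ?_
      simp [avC_smul]
    | congr _ he i =>
      exact i.congr' (he.mono fun Q h => by simp only [h])
  | add _ _ i1 i2 =>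
    intro F hF
    refine Tendsto.congr (fun Q => ?_) (by simpa using (i1 F hF).add (i2 F hF))
    simp [mul_add, avC_add']
  | smul s _ ih =>
    intro F hF
    have := (ih F hF).const_mul s
    rw [mul_zero] at this
    refine this.congr fun Q => ?_
    simp [avC_smul]

/-- Mean of `φ (f* L g)`. -/
theorem orth_small_free [Nonempty β] (hφ : IsCState M A φ) (hD : FreeData M A φ Mon Gap)
    {f : SFam A β} (hf : InV0 M A Gap (InLet A Mon) f) : ∀ L g : SFam A β, InLet A Mon L →
      InV0 M A Gap (InLet A Mon) g →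
      Tendsto (fun Q => avC fun c => φ (star (f Q c) * (L Q c * g Q c))) (refF A) (𝓝 0) := by
  induction hf with
  | @base b hb =>
    intro L g hL hg
    induction hL with
    | word hW =>
      refine (tail_small hφ hD hg _ (isPre_base hD (star_mem hb) hW)).congr fun Q => ?_
      simp only [mul_assoc]
    | add _ _ i1 i2 =>
      refine Tendsto.congr (fun Q => ?_) (by simpa using i1.add i2)
      simp [mul_add, add_mul, avC_add']
    | smul s _ i =>
      have := i.const_mul s
      rw [mul_zero] at this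
      refine this.congr fun Q => ?_
      simp [avC_smul]
    | congr _ he i =>
      exact i.congr' (he.mono fun Q h => by simp only [h])
  | @step d L' f hd hL' _ ih =>
    intro L g hL hg
    refine (ih _ _ (inLet_star hD hL') (InV0.step (hD.gap_star _ hd) hL hg)).congr fun Q => ?_
    simp only [star_mul, mul_assoc]
  | add _ _ i1 i2 =>
    intro L g hL hg
    refine Tendsto.congr (fun Q => ?_) (by simpa using (i1 L g hL hg).add (i2 L g hL hg))
    simp [add_mul, avC_add']
  | smul s _ ih =>
    intro L g hL hg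
    have := (ih L g hL hg).const_mul (starRingEnd ℂ s)
    rw [mul_zero] at this
    refine this.congr fun Q => ?_
    simp [avC_smul]

/-- Eventually bounded in `M`, and right multiplication keeps small mean squares small. -/
def Tame (M A : VonNeumannAlgebra H) (φ : (H →L[ℂ] H) →ₗ[ℂ] ℂ) (F : SFam A β) : Prop :=
  (∃ K : ℝ, 0 ≤ K ∧ ∀ᶠ Q in refF A, ∀ c, F Q c ∈ M ∧ ‖F Q c‖ ≤ K) ∧
    ∀ C η : ℝ, 0 < η → ∃ δ : ℝ, 0 < δ ∧ ∀ᶠ Q in refF A, ∀ (c : Fin Q.n → β), ∀ z ∈ M,
      ‖z‖ ≤ C → sq φ z ≤ δ → sq φ (z * F Q c) ≤ η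

theorem tame_const (hφ : IsCState M A φ) {b : H →L[ℂ] H} (hb : b ∈ M) :
    Tame M A φ (fun _ _ => b : SFam A β) := by
  refine ⟨⟨‖b‖, norm_nonneg b, .of_forall fun Q c => ⟨hb, le_rfl⟩⟩, fun C η hη => ?_⟩
  obtain ⟨δ, hδ, h⟩ := hφ.conj_small hb (sq_nonneg C) hη
  refine ⟨δ / 2, half_pos hδ, .of_forall fun Q c z hz hzC hzs => ?_⟩
  have := h Unit (fun _ => z) (fun _ => hz) (fun v => by
    simp only [Finset.univ_unique, Finset.sum_singleton, ← mul_pow]
    exact pow_le_pow_left₀ (norm_nonneg _)
      ((z.le_opNorm v).trans (mul_le_mul_of_nonneg_right hzC (norm_nonneg v))) 2)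
    (by simp only [Finset.univ_unique, Finset.sum_singleton]; linarith)
  simpa using this

theorem tame_cell (hφ : IsCState M A φ) (g : β → ℝ) :
    Tame M A φ (fun Q c => cellOp Q c g : SFam A β) := by
  set K := ∑ b, |g b| with hK
  have hK0 : 0 ≤ K := Finset.sum_nonneg fun b _ => abs_nonneg _
  have hgK : ∀ b, |g b| ≤ K := fun b =>
    Finset.single_le_sum (fun b _ => abs_nonneg (g b)) (Finset.mem_univ b)
  have hmem : ∀ (Q : Part A (1 : H →L[ℂ] H)) (c : Fin Q.n → β), cellOp Q c g ∈ M := fun Q c =>
    sum_mem fun j _ => smul_mem' M (hφ.masa.le _ (Q.isPart.mem j)) _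
  refine ⟨⟨K, hK0, .of_forall fun Q c => ⟨hmem Q c, ?_⟩⟩, fun C η hη => ?_⟩
  · have h := norm_sum_coef_le (A := A) Q.isPart (c := fun j => ((g (c j) / (K + 1) : ℝ) : ℂ))
      fun j => by
        rw [Complex.norm_real, Real.norm_eq_abs, abs_div, abs_of_pos (by positivity : 0 < K + 1),
          div_le_one (by positivity)]
        linarith [hgK (c j)]
    refine ContinuousLinearMap.opNorm_le_bound _ hK0 fun v => ?_
    refine le_of_pow_le_pow_left₀ two_ne_zero (by positivity) ?_
    have e1 : cellOp Q c g v = ∑ j, Q.p j ((g (c j) : ℂ) • v) := by simp [cellOp, sum_apply]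
    rw [e1, Q.isPart.norm_sq_sum_apply, mul_pow]
    calc ∑ j, ‖Q.p j ((g (c j) : ℂ) • v)‖ ^ 2 ≤ ∑ j, K ^ 2 * ‖Q.p j v‖ ^ 2 :=
          Finset.sum_le_sum fun j _ => by
            rw [map_smul, norm_smul, mul_pow, Complex.norm_real, Real.norm_eq_abs]
            exact mul_le_mul_of_nonneg_right (pow_le_pow_left₀ (abs_nonneg _) (hgK _) 2)
              (sq_nonneg _)
      _ ≤ K ^ 2 * ‖v‖ ^ 2 := by
          rw [← Finset.mul_sum]
          exact mul_le_mul_of_nonneg_left (Q.isPart.sum_norm_sq_le v) (sq_nonneg K)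
  · refine ⟨η / (K ^ 2 + 1), by positivity, .of_forall fun Q c z hz _ hzs => ?_⟩
    have e : sq φ (z * cellOp Q c g) = ∑ j, g (c j) ^ 2 * sq φ (z * Q.p j) := by
      have hX : star z * z ∈ M := mul_mem (star_mem hz) hz
      have h0 : ∀ i j, i ≠ j → φ (Q.p i * (star z * z * Q.p j)) = 0 := fun i j hij => by
        rw [hφ.central _ (Q.isPart.mem i) _ (mul_mem hX (hφ.masa.le _ (Q.isPart.mem j))), mul_assoc,
          Q.isPart.orth j i hij.symm, mul_zero, map_zero]
      simp only [sq, cellOp, Finset.mul_sum, star_sum, Finset.sum_mul, mul_smul_comm, star_smul,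
        smul_mul_assoc, smul_smul, star_mul, Complex.star_def, Complex.conj_ofReal, map_sum, map_smul,
        Complex.re_sum, (Q.isPart.proj _).isSelfAdjoint.star_eq]
      refine Finset.sum_congr rfl fun j _ => ?_
      rw [Finset.sum_eq_single j]
      · simp [mul_assoc, ← Complex.ofReal_mul, pow_two]
      · intro i _ hij
        rw [show Q.p i * star z * (z * Q.p j) = Q.p i * (star z * z * Q.p j) by
          simp only [mul_assoc], h0 i j hij]
        simp
      · exact fun h => absurd (Finset.mem_univ j) h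
    rw [e]
    refine (Finset.sum_le_sum fun j _ => mul_le_mul_of_nonneg_right
      ((sq_abs (g (c j))).symm.le.trans (pow_le_pow_left₀ (abs_nonneg _) (hgK _) 2))
      (hφ.sq_nonneg' (mul_mem hz (hφ.masa.le _ (Q.isPart.mem j))))).trans ?_
    rw [← Finset.mul_sum, hφ.sum_sq_mul_part Q hz]
    rw [le_div_iff₀ (by positivity)] at hzs
    nlinarith [hφ.sq_nonneg' hz]

end Vale.Agent.P078.General.Single
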