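import Vale.Agent.P078.Free.Pattern
import Vale.Agent.P078.Single.Norm

/-!
# Letters and alternating chains

A letter is a word in centred functions of the seeds of single cells with monomial gaps, vanishing
when two of its cells coincide in a fine partition. Chains of letters separated by gaps with
diffuse conjugates have small means.
-/

namespace Vale.Agent.P078.General.Single

open scoped InnerProductSpace Topology ComplexOrder
open Filter

universe u

variable {H : Type u} [NormedAddCommGroup H] [InnerProductSpace ℂ H] [CompleteSpace H]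
variable {M A : VonNeumannAlgebra H} {φ : (H →L[ℂ] H) →ₗ[ℂ] ℂ}

/-- The monomials and the gaps with diffuse conjugates. -/
structure FreeData (M A : VonNeumannAlgebra H) (φ : (H →L[ℂ] H) →ₗ[ℂ] ℂ)
    (Mon Gap : (H →L[ℂ] H) → Prop) : Prop where
  mon_mem : ∀ v, Mon v → v ∈ M
  mon_conj : ∀ v, Mon v → Conj A v
  mon_one : Mon 1
  mon_mul : ∀ v w, Mon v → Mon w → Mon (v * w)
  mon_star : ∀ v, Mon v → Mon (star v)
  gap_mem : ∀ d, Gap d → d ∈ M
  gap_star : ∀ d, Gap d → Gap (star d)
  gap_left : ∀ v d, Mon v → Gap d → Gap (v * d)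
  gap_right : ∀ d v, Gap d → Mon v → Gap (d * v)
  gap_diffuse : ∀ d, Gap d → Diffuse A φ d
  approx : ∀ x ∈ M, ∃ (d : H →L[ℂ] H) (C : ℝ), Gap d ∧ ∀ η : ℝ, 0 < η →
    ∃ (k : ℕ) (s : Fin k → ℂ) (v : Fin k → H →L[ℂ] H), (∀ i, Mon (v i)) ∧
      ‖x - d - ∑ i, s i • v i‖ ≤ C ∧ sq φ (x - d - ∑ i, s i • v i) ≤ η

/-- Families indexed by partitions and seeds. -/
abbrev SFam (A : VonNeumannAlgebra H) (β : Type) :=
  ∀ Q : Part A (1 : H →L[ℂ] H), (Fin Q.n → β) → H →L[ℂ] H

omit [CompleteSpace H] in
theorem pw_congr' (l : ℕ) : ∀ (U U' m m' : ℕ → H →L[ℂ] H), (∀ x, x < l → U x = U' x) →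
    (∀ x, x ≤ l → m x = m' x) → pw l U m = pw l U' m' := by
  induction l with
  | zero => intro U U' m m' _ hm; exact hm 0 le_rfl
  | succ l ih =>
    intro U U' m m' hU hm
    simp only [pw, hU 0 (Nat.succ_pos l), hm 0 (Nat.zero_le _)]
    rw [ih _ _ _ _ (fun x hx => hU (x + 1) (by omega)) (fun x hx => hm (x + 1) (by omega))]

omit [CompleteSpace H] in
theorem pw_mul_left (b : H →L[ℂ] H) : ∀ (l : ℕ) (U m : ℕ → H →L[ℂ] H),
    pw l U (fun x => if x = 0 then b * m x else m x) = b * pw l U m
  | 0, U, m => by simp [pw]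
  | l + 1, U, m => by simp [pw, mul_assoc]

omit [CompleteSpace H] in
theorem pw_mul_right (b : H →L[ℂ] H) : ∀ (l : ℕ) (U m : ℕ → H →L[ℂ] H),
    pw l U (fun x => if x = l then m x * b else m x) = pw l U m * b
  | 0, U, m => by simp [pw]
  | l + 1, U, m => by
    have h := pw_mul_right b l (fun x => U (x + 1)) (fun x => m (x + 1))
    simp only [pw, Nat.succ_ne_zero, if_false, (Nat.succ_ne_zero l).symm, mul_assoc] at h ⊢
    rw [← h]
    congr 2
    exact pw_congr' l _ _ _ _ (fun _ _ => rfl) fun x _ => by simp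

omit [CompleteSpace H] in
/-- Concatenation; the two middle gaps merge. -/
theorem pw_append : ∀ (a b : ℕ) (U m U' n : ℕ → H →L[ℂ] H),
    pw (a + b) (fun x => if x < a then U x else U' (x - a))
      (fun x => if x < a then m x else if x = a then m a * n 0 else n (x - a)) =
      pw a U m * pw b U' n
  | 0, b, U, m, U', n => by
    have h := pw_mul_left (m 0) b U' n
    rw [Nat.zero_add, ← show pw b U' (fun x => if x = 0 then m 0 * n x else n x) =
      pw 0 U m * pw b U' n from h]
    refine pw_congr' b _ _ _ _ (fun x _ => by simp) fun x _ => ?_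
    by_cases hx : x = 0
    · simp [hx]
    · simp [hx]
  | a + 1, b, U, m, U', n => by
    rw [show a + 1 + b = a + b + 1 by omega]
    simp only [pw, Nat.succ_pos, if_pos]
    rw [mul_assoc (m 0 * U 0), ← pw_append a b (fun x => U (x + 1)) (fun x => m (x + 1)) U' n]
    congr 1
    refine pw_congr' _ _ _ _ _ (fun x _ => ?_) fun x _ => ?_
    · simp only [Nat.succ_lt_succ_iff, Nat.add_lt_add_iff_right, Nat.add_sub_add_right]
    · simp only [Nat.add_lt_add_iff_right, Nat.add_right_cancel_iff, Nat.add_sub_add_right]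

theorem star_pw : ∀ (l : ℕ) (U m : ℕ → H →L[ℂ] H), (∀ x, star (U x) = U x) →
    star (pw l U m) = pw l (fun x => U (l - 1 - x)) (fun x => star (m (l - x)))
  | 0, U, m, _ => by simp [pw]
  | l + 1, U, m, hU => by
    have h := star_pw l (fun x => U (x + 1)) (fun x => m (x + 1)) (fun x => hU (x + 1))
    rw [show pw (l + 1) U m = m 0 * U 0 * pw l (fun x => U (x + 1)) (fun x => m (x + 1)) from rfl,
      star_mul, star_mul, hU, h]
    set V : ℕ → H →L[ℂ] H := fun x => U ((l - 1 - x) + 1) with hV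
    set k : ℕ → H →L[ℂ] H := fun x => star (m ((l - x) + 1)) with hk
    have e : U 0 * star (m 0) = pw 1 (fun _ => U 0) (fun x => if x = 0 then (1 : H →L[ℂ] H) else star (m 0)) := by
      simp [pw]
    rw [e]
    refine Eq.trans (pw_append l 1 V k (fun _ : ℕ => U 0)
      (fun x : ℕ => if x = 0 then (1 : H →L[ℂ] H) else star (m 0))).symm ?_
    refine pw_congr' (H := H) _ _ _ _ _ (fun x hx => ?_) fun x hx => ?_
    · by_cases h : x < l
      · simp only [if_pos h, hV]; congr 1; omega
      · simp only [if_neg h]; congr 1; omega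
    · by_cases h : x < l
      · simp only [if_pos h, hk]; congr 2; omega
      · by_cases h' : x = l
        · subst h'; simp [hk]
        · obtain rfl : x = l + 1 := by omega
          simp

/-- The cell factors of a word. -/
noncomputable def cells (Q : Part A (1 : H →L[ℂ] H)) {β : Type} (c : Fin Q.n → β)
    (g : ℕ → β → ℝ) (x : ℕ) : H →L[ℂ] H :=
  cellOp Q c (g x)

theorem star_cellOp {β : Type} (Q : Part A (1 : H →L[ℂ] H)) (c : Fin Q.n → β) (g : β → ℝ) :
    star (cellOp Q c g) = cellOp Q c g := by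
  simp [cellOp, star_sum, (Q.isPart.proj _).isSelfAdjoint.star_eq]

/-- Coinciding cells annihilate the word in fine partitions. -/
def NoColl (A : VonNeumannAlgebra H) (k : ℕ) (n : ℕ → H →L[ℂ] H) : Prop :=
  ∀ x y : ℕ, x < y → y < k → ∀ᶠ Q in refF A, ∀ t : ℕ → Fin Q.n, t x = t y →
    pw k (fun z => Q.p (t z)) n = 0

/-- A word of centred cell functions with monomial gaps and without coincidences. -/
def IsWord (A : VonNeumannAlgebra H) (Mon : (H →L[ℂ] H) → Prop) {β : Type} [Fintype β]
    (F : SFam A β) : Prop :=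
  ∃ (k : ℕ) (n : ℕ → H →L[ℂ] H) (g : ℕ → β → ℝ), 0 < k ∧ (∀ x, Mon (n x)) ∧
    (∀ x, x < k → av (g x) = 0) ∧ NoColl A k n ∧
      ∀ Q c, F Q c = pw k (cells Q c g) n

/-- Combinations of such words, up to eventual equality. -/
inductive InLet (A : VonNeumannAlgebra H) (Mon : (H →L[ℂ] H) → Prop) {β : Type} [Fintype β] :
    SFam A β → Prop
  | word {F : SFam A β} : IsWord A Mon F → InLet A Mon F
  | add {F G : SFam A β} : InLet A Mon F → InLet A Mon G → InLet A Mon fun Q c => F Q c + G Q c
  | smul {F : SFam A β} (s : ℂ) : InLet A Mon F → InLet A Mon fun Q c => s • F Q c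
  | congr {F G : SFam A β} : InLet A Mon F → (∀ᶠ Q in refF A, ∀ c, G Q c = F Q c) → InLet A Mon G

variable {Mon Gap : (H →L[ℂ] H) → Prop} {β : Type} [Fintype β]

theorem isWord_star (hD : FreeData M A φ Mon Gap) {F : SFam A β} (h : IsWord A Mon F) :
    IsWord A Mon fun Q c => star (F Q c) := by
  obtain ⟨k, n, g, hk, hn, hg, hc, e⟩ := h
  refine ⟨k, fun x => star (n (k - x)), fun x => g (k - 1 - x), hk,
    fun x => hD.mon_star _ (hn _), fun x hx => hg _ (by omega), fun x y hxy hy => ?_, fun Q c => ?_⟩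
  · refine (hc (k - 1 - y) (k - 1 - x) (by omega) (by omega)).mono fun Q hQ t ht => ?_
    have h0 := hQ (fun z => t (k - 1 - z)) (by
      simp only [show k - 1 - (k - 1 - y) = y by omega, show k - 1 - (k - 1 - x) = x by omega, ht])
    have h1 := congrArg star h0
    rw [star_pw k _ n fun z => (Q.isPart.proj _).isSelfAdjoint.star_eq, star_zero] at h1
    refine Eq.trans (pw_congr' k _ _ _ _ (fun z hz => ?_) fun _ _ => rfl) h1
    show Q.p (t z) = Q.p (t (k - 1 - (k - 1 - z)))
    rw [show k - 1 - (k - 1 - z) = z by omega]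
  · show star (F Q c) = _
    rw [e, star_pw k (cells Q c g) n fun z => star_cellOp Q c (g z)]
    rfl

theorem inLet_star (hD : FreeData M A φ Mon Gap) {F : SFam A β} (h : InLet A Mon F) :
    InLet A Mon fun Q c => star (F Q c) := by
  induction h with
  | word h => exact .word (isWord_star hD h)
  | add _ _ i1 i2 => simpa only [star_add] using i1.add i2
  | smul s _ ih => simpa only [star_smul] using ih.smul (star s)
  | congr _ he ih => exact ih.congr (he.mono fun Q h c => by rw [h c])

/-- A prefix of a chain: a word with the hypotheses of `word_small_free`, ending in a monomial. -/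
def IsPre (M A : VonNeumannAlgebra H) (φ : (H →L[ℂ] H) →ₗ[ℂ] ℂ) (Mon : (H →L[ℂ] H) → Prop)
    (F : SFam A β) : Prop :=
  ∃ (l : ℕ) (m : ℕ → H →L[ℂ] H) (g : ℕ → β → ℝ) (bd : ℕ → Prop), 0 < l ∧
    (∀ x, m x ∈ M) ∧ (∀ x, x < l → av (g x) = 0) ∧ Mon (m l) ∧
    (∀ x, 0 < x → x < l → ¬bd x → Mon (m x)) ∧
    (∀ j a, 0 < j → j ≤ a → a < l → bd j → (∀ x, j < x → x ≤ a → ¬bd x) →
      Diffuse A φ (seg m j (a - j))) ∧
    (∀ x y : ℕ, x < y → y < l → (∀ z, x < z → z ≤ y → ¬bd z) → ∀ᶠ Q in refF A,
      ∀ t : ℕ → Fin Q.n, t x = t y → pw l (fun z => Q.p (t z)) m = 0) ∧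
    ∀ Q c, F Q c = pw l (cells Q c g) m

theorem isPre_base (hD : FreeData M A φ Mon Gap) {b : H →L[ℂ] H} (hb : b ∈ M) {L : SFam A β}
    (hL : IsWord A Mon L) : IsPre M A φ Mon fun Q c => b * L Q c := by
  obtain ⟨k, n, g, hk, hn, hg, hc, e⟩ := hL
  refine ⟨k, fun x => if x = 0 then b * n x else n x, g, fun _ => False, hk,
    fun x => ?_, hg, ?_, fun x h0 _ _ => ?_, fun j a _ _ _ h => h.elim, fun x y hxy hy _ => ?_,
    fun Q c => by rw [pw_mul_left]; simp only [e]⟩
  · dsimp only
    split_ifs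
    exacts [mul_mem hb (hD.mon_mem _ (hn x)), hD.mon_mem _ (hn x)]
  · dsimp only; rw [if_neg hk.ne']; exact hn k
  · dsimp only; rw [if_neg h0.ne']; exact hn x
  · refine (hc x y hxy hy).mono fun Q hQ t ht => ?_
    rw [pw_mul_left, hQ t ht, mul_zero]

omit [CompleteSpace H] in
theorem seg_congr {m m' : ℕ → H →L[ℂ] H} : ∀ (d j : ℕ), (∀ x, j ≤ x → x ≤ j + d → m x = m' x) →
    seg m j d = seg m' j d
  | 0, j, h => h j le_rfl le_rfl
  | d + 1, j, h => by
    rw [seg, seg, h j le_rfl (by omega), seg_congr d (j + 1) fun x h0 h1 => h x (by omega) (by omega)]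

theorem seg_gap (hD : FreeData M A φ Mon Gap) {m : ℕ → H →L[ℂ] H} (d j : ℕ) (hj : Gap (m j))
    (hm : ∀ x, j < x → x ≤ j + d → Mon (m x)) : Gap (seg m j d) := by
  have hmon : ∀ d i, (∀ x, i ≤ x → x ≤ i + d → Mon (m x)) → Mon (seg m i d) := by
    intro d
    induction d with
    | zero => exact fun i h => h i le_rfl le_rfl
    | succ d ih =>
      exact fun i h => hD.mon_mul _ _ (h i le_rfl (by omega))
        (ih (i + 1) fun x h0 h1 => h x (by omega) (by omega))
  cases d with
  | zero => exact hj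
  | succ d => exact hD.gap_right _ _ hj (hmon d (j + 1) fun x h0 h1 => hm x (by omega) (by omega))

theorem isPre_step (hD : FreeData M A φ Mon Gap) {F : SFam A β} (hF : IsPre M A φ Mon F)
    {d : H →L[ℂ] H} (hd : Gap d) {L : SFam A β} (hL : IsWord A Mon L) :
    IsPre M A φ Mon fun Q c => F Q c * d * L Q c := by
  obtain ⟨l, m, g, bd, hl, hm, hg, hml, hmon, hdiff, hcoll, e⟩ := hF
  obtain ⟨k, n, g', hk, hn, hg', hc, e'⟩ := hL
  set m1 : ℕ → H →L[ℂ] H := fun x => if x = l then m x * d else m x with hm1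
  set m2 : ℕ → H →L[ℂ] H :=
    fun x => if x < l then m1 x else if x = l then m1 l * n 0 else n (x - l) with hm2
  have hlo : ∀ x, x < l → m2 x = m x := fun x h => by
    simp only [hm2, hm1, if_pos h, if_neg h.ne]
  have hhi : ∀ x, l < x → m2 x = n (x - l) := fun x h => by
    simp only [hm2, if_neg (not_lt.2 h.le), if_neg h.ne']
  have hmid : m2 l = m l * d * n 0 := by simp [hm2, hm1]
  have hsplit : ∀ U U' : ℕ → H →L[ℂ] H,
      pw (l + k) (fun x => if x < l then U x else U' (x - l)) m2 =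
        pw l U m * d * pw k U' n := fun U U' => by
    rw [hm2, pw_append l k U m1 U' n, hm1, pw_mul_right]
  refine ⟨l + k, m2, fun x => if x < l then g x else g' (x - l),
    fun x => (x < l ∧ bd x) ∨ x = l, by omega, fun x => ?_, fun x hx => ?_, ?_, fun x h0 hx hb => ?_,
    fun j a hj0 hja hal hb hno => ?_, fun x y hxy hy hno => ?_, fun Q c => ?_⟩
  · rcases lt_trichotomy x l with h | h | h
    · rw [hlo x h]; exact hm x
    · rw [h, hmid]; exact mul_mem (mul_mem (hm l) (hD.gap_mem _ hd)) (hD.mon_mem _ (hn 0))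
    · rw [hhi x h]; exact hD.mon_mem _ (hn _)
  · dsimp only
    split_ifs with h
    exacts [hg x h, hg' _ (by omega)]
  · rw [hhi _ (by omega)]; exact hn _
  · push Not at hb
    rcases lt_trichotomy x l with h | h | h
    · rw [hlo x h]; exact hmon x h0 h (hb.1 h)
    · exact absurd h hb.2
    · rw [hhi x h]; exact hn _
  · rcases lt_or_ge a l with hal' | hal'
    · rw [seg_congr (m := m2) (m' := m) (a - j) j fun x h0 h1 => hlo x (by omega)]
      exact hdiff j a hj0 hja hal' (hb.elim (·.2) (fun h => absurd h (by omega)))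
        fun x h0 h1 h => hno x h0 h1 (Or.inl ⟨by omega, h⟩)
    · obtain rfl : j = l := by
        by_contra hne
        rcases hb with ⟨hjl, -⟩ | h
        · exact hno l hjl hal' (Or.inr rfl)
        · exact hne h
      exact hD.gap_diffuse _ (seg_gap hD _ _ (by
        rw [hmid]; exact hD.gap_right _ _ (hD.gap_left _ _ hml hd) (hn 0))
        fun x h0 h1 => by rw [hhi x h0]; exact hn _)
  · have key : ∀ (Q : Part A (1 : H →L[ℂ] H)) (t : ℕ → Fin Q.n),
        pw (l + k) (fun z => Q.p (t z)) m2 =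
          pw l (fun z => Q.p (t z)) m * d * pw k (fun z => Q.p (t (z + l))) n := fun Q t => by
      rw [← hsplit]
      refine pw_congr' _ _ _ _ _ (fun z _ => ?_) fun _ _ => rfl
      split_ifs with h
      · rfl
      · rw [Nat.sub_add_cancel (by omega)]
    rcases lt_or_ge y l with hyl | hyl
    · refine (hcoll x y hxy hyl fun z h0 h1 h => hno z h0 h1 (Or.inl ⟨by omega, h⟩)).mono
        fun Q hQ t ht => ?_
      rw [key, hQ t ht, zero_mul, zero_mul]
    · have hxl : l ≤ x := by
        by_contra h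
        exact hno l (by omega) hyl (Or.inr rfl)
      refine (hc (x - l) (y - l) (by omega) (by omega)).mono fun Q hQ t ht => ?_
      rw [key, hQ (fun z => t (z + l)) (by
        rw [Nat.sub_add_cancel hxl, Nat.sub_add_cancel hyl, ht]), mul_zero]
  · simp only [e, e', ← hsplit]
    refine pw_congr' _ _ _ _ _ (fun z _ => ?_) fun _ _ => rfl
    simp only [cells]
    split_ifs <;> rfl

theorem isPre_small [Nonempty β] (hφ : IsCState M A φ) (hD : FreeData M A φ Mon Gap) {F : SFam A β}
    (hF : IsPre M A φ Mon F) {b : H →L[ℂ] H} (hb : b ∈ M) :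
    Tendsto (fun Q => avC fun c : Fin Q.n → β => φ (F Q c * b)) (refF A) (𝓝 0) := by
  obtain ⟨l, m, g, bd, hl, hm, hg, -, hmon, hdiff, hcoll, e⟩ := hF
  refine Metric.tendsto_nhds.2 fun η hη => ?_
  set m1 : ℕ → H →L[ℂ] H := fun x => if x = l then m x * b else m x with hm1
  have hlo : ∀ x, x < l → m1 x = m x := fun x h => by simp [hm1, h.ne]
  filter_upwards [hφ.word_small_free (β := β) hl hg (m := m1) (bd := bd)
    (fun x => by simp only [hm1]; split_ifs; exacts [mul_mem (hm x) hb, hm x])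
    (fun x h0 hx hnb => by rw [hlo x hx]; exact hD.mon_conj _ (hmon x h0 hx hnb))
    (fun j a hj0 hja hal hbj hno => by
      rw [seg_congr (m := m1) (m' := m) (a - j) j fun x h0 h1 => hlo x (by omega)]
      exact hdiff j a hj0 hja hal hbj hno)
    (fun x y hxy hno => by
      refine (hcoll x y hxy y.2 hno).mono fun Q hQ k hk => ?_
      have : Nonempty (Fin Q.n) := ⟨k x⟩
      set t : ℕ → Fin Q.n := fun z => if h : z < l then k ⟨z, h⟩ else k x with ht
      have e : word Q.p m1 k = pw l (fun z => Q.p (t z)) m1 := word_eq_pw Q.p m1 k t fun z => by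
        simp [ht]
      rw [e, hm1, pw_mul_right, hQ t (by simp [ht, hk]), zero_mul])
    (half_pos hη)] with Q hQ
  rw [dist_zero_right]
  refine lt_of_le_of_lt (le_of_eq_of_le ?_ hQ) (half_lt_self hη)
  congr 2
  funext c
  rw [e, hm1, pw_mul_right]
  rfl
where
  word_eq_pw {ν : ℕ} (p : Fin ν → H →L[ℂ] H) : ∀ (m : ℕ → H →L[ℂ] H) {l : ℕ} (k : Fin l → Fin ν)
      (t : ℕ → Fin ν), (∀ z : Fin l, t z = k z) → word p m k = pw l (fun z => p (t z)) m
    | m, 0, k, t, _ => by simp [word_zero, pw]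
    | m, l + 1, k, t, h => by
      rw [word_succ, pw, word_eq_pw p (fun x => m (x + 1)) (Fin.tail k) (fun z => t (z + 1))
        fun z => h z.succ]
      rw [← h 0]
      rfl

end Vale.Agent.P078.General.Single
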